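import Vale.Agent.P217.I.Add
import Vale.Agent.P217.EF.Basic

/-!
# P217, block HOM: the finite estimates behind the linearisation of a digit hom
-/

noncomputable section

namespace Vale.Agent.P217.Hom

open Finset Filter Topology

variable {p : ℕ} [Fact p.Prime]

theorem p_ne_zero_Cp : (p : PadicComplex p) ≠ 0 := Nat.cast_ne_zero.2 (Fact.out : p.Prime).ne_zero

theorem norm_div_pow (x : PadicComplex p) (i : ℕ) :
    ‖x / (p : PadicComplex p) ^ i‖ = (p : ℝ) ^ i * ‖x‖ := by
  rw [norm_div, norm_pow, I.norm_p, inv_pow, div_inv_eq_mul, mul_comm]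

variable (p) in
/-- The coefficient of degree p ^ N in the logarithm of the power p ^ s of a digit series. -/
def curveB (h s : ℕ) (b : ℕ → PadicComplex p) (N : ℕ) : PadicComplex p :=
  ∑ i ∈ range (N + 1),
    if s + h * i ≤ N then b (N - (s + h * i)) ^ p ^ (s + h * i) / (p : PadicComplex p) ^ i else 0

variable {n h : ℕ} {b : ℕ → PadicComplex p}

theorem norm_p_mul_curveB_sub (hh : 1 ≤ h) (hhn : h < n) (s : ℕ) (hb : ∀ j, ‖b j‖ ≤ 1)
    (hc : ∀ j, ‖b (j + (n - h)) ^ p ^ h - b j‖ ≤ (p : ℝ)⁻¹)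
    (hc0 : ∀ j, j < n - h → ‖b j ^ p ^ h‖ ≤ (p : ℝ)⁻¹) (N : ℕ) :
    ‖(p : PadicComplex p) * curveB p h s b N -
      (if n ≤ N then curveB p h s b (N - n) else 0)‖ ≤ 1 := by
  have hp0 : (p : PadicComplex p) ≠ 0 := p_ne_zero_Cp
  have hpR : (0 : ℝ) < p := by exact_mod_cast (Fact.out : p.Prime).pos
  have hpow : ∀ (x : PadicComplex p) (e : ℕ), ‖x‖ ≤ 1 → ‖x ^ e‖ ≤ 1 := fun x e hx => by
    rw [norm_pow]; exact pow_le_one₀ (norm_nonneg _) hx
  set T := fun i => if n ≤ N ∧ s + h * i ≤ N - n then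
    b (N - n - (s + h * i)) ^ p ^ (s + h * i) / (p : PadicComplex p) ^ i else 0 with hT
  have hsub : (if n ≤ N then curveB p h s b (N - n) else 0) = ∑ i ∈ range N, T i := by
    split_ifs with hN
    · rw [curveB, ← sum_subset (s₁ := range (N - n + 1)) (s₂ := range N)
        (range_subset_range.2 (by omega)) fun i _ hi => ?_]
      · exact sum_congr rfl fun i _ => by simp [T, hN]
      · rw [mem_range] at hi
        refine if_neg fun hc => ?_
        have := Nat.le_mul_of_pos_left i hh
        omega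
    · exact (sum_eq_zero fun i _ => if_neg fun hc => hN hc.1).symm
  rw [hsub, curveB, mul_sum, sum_range_succ', add_sub_right_comm, ← sum_sub_distrib]
  refine (IsUltrametricDist.norm_add_le_max _ _).trans (max_le ?_ ?_)
  · refine IsUltrametricDist.norm_sum_le_of_forall_le_of_nonneg zero_le_one fun i _ => ?_
    have hh1 : s + h * (i + 1) = h + (s + h * i) := by ring
    set e := s + h * i with he
    have hie : i ≤ e := (Nat.le_mul_of_pos_left i hh).trans (Nat.le_add_left _ _)
    by_cases h1 : s + h * (i + 1) ≤ N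
    · rw [if_pos h1, mul_div_assoc', pow_succ', mul_div_mul_left _ _ hp0, hh1, pow_add,
        pow_mul (b _)]
      set J := N - (h + e) with hJ
      have hbound : ∀ y : PadicComplex p, ‖y‖ ≤ 1 → ‖b J ^ p ^ h - y‖ ≤ (p : ℝ)⁻¹ →
          ‖((b J ^ p ^ h) ^ p ^ e - y ^ p ^ e) / (p : PadicComplex p) ^ i‖ ≤ 1 := by
        intro y hy hd
        rw [norm_div_pow]
        refine le_trans (mul_le_mul_of_nonneg_left (I.pow_close (hpow _ _ (hb J)) hy hd e)
          (by positivity)) ?_
        rw [inv_pow, ← div_eq_mul_inv, div_le_one (by positivity)]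
        exact pow_le_pow_right₀ (by exact_mod_cast (Fact.out : p.Prime).one_le) (by omega)
      by_cases h2 : n ≤ N ∧ e ≤ N - n
      · simp only [T, ← he, if_pos h2, ← sub_div]
        refine hbound _ (hb _) ?_
        rw [show J = N - n - e + (n - h) by omega]
        exact hc _
      · simp only [T, ← he, if_neg h2, sub_zero]
        have := hbound 0 (by simp) (by rw [sub_zero]; exact hc0 J (by omega))
        rwa [zero_pow (pow_ne_zero _ (Fact.out : p.Prime).ne_zero), sub_zero] at this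
    · rw [if_neg h1, mul_zero, zero_sub, norm_neg, hT]
      simp only [← he]
      rw [if_neg (by omega), norm_zero]
      exact zero_le_one
  · rw [norm_mul, I.norm_p]
    refine mul_le_one₀ (I.inv_p_lt_one (p := p)).le (norm_nonneg _) ?_
    split_ifs
    · simpa using hpow _ _ (hb _)
    · simp

/-- The limits A t. -/
theorem exists_curve_limit (hh : 1 ≤ h) (hhn : h < n) (s : ℕ) (hb : ∀ j, ‖b j‖ ≤ 1)
    (hc : ∀ j, ‖b (j + (n - h)) ^ p ^ h - b j‖ ≤ (p : ℝ)⁻¹)
    (hc0 : ∀ j, j < n - h → ‖b j ^ p ^ h‖ ≤ (p : ℝ)⁻¹) (t : ℕ) :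
    ∃ A : PadicComplex p, ∀ m : ℕ,
      ‖curveB p h s b (n * m + t) - A / (p : PadicComplex p) ^ m‖ ≤ 1 := by
  have hp0 : (p : PadicComplex p) ≠ 0 := p_ne_zero_Cp
  have hpR : (0 : ℝ) < p := by exact_mod_cast (Fact.out : p.Prime).pos
  have hr1 : (p : ℝ)⁻¹ < 1 := I.inv_p_lt_one
  set f := fun m => (p : PadicComplex p) ^ m * curveB p h s b (n * m + t) with hf
  have step : ∀ m, ‖f (m + 1) - f m‖ ≤ (p : ℝ)⁻¹ ^ m := by
    intro m
    have e := norm_p_mul_curveB_sub hh hhn s hb hc hc0 (n * (m + 1) + t)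
    rw [if_pos (by rw [Nat.mul_succ]; omega),
      show n * (m + 1) + t - n = n * m + t by rw [Nat.mul_succ]; omega] at e
    have hrw : f (m + 1) - f m = (p : PadicComplex p) ^ m *
        ((p : PadicComplex p) * curveB p h s b (n * (m + 1) + t) -
          curveB p h s b (n * m + t)) := by
      simp only [hf, pow_succ]; ring
    rw [hrw, norm_mul, norm_pow, I.norm_p]
    exact mul_le_of_le_one_right (by positivity) e
  have steps : ∀ m k, ‖f (m + k) - f m‖ ≤ (p : ℝ)⁻¹ ^ m := by
    intro m k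
    induction k with
    | zero => simp only [add_zero, sub_self, norm_zero]; positivity
    | succ k ih =>
      rw [show f (m + (k + 1)) - f m = (f (m + k + 1) - f (m + k)) + (f (m + k) - f m) by
        rw [← add_assoc]; ring]
      exact (IsUltrametricDist.norm_add_le_max _ _).trans (max_le ((step _).trans
        (pow_le_pow_of_le_one (by positivity) hr1.le (Nat.le_add_right m k))) ih)
  obtain ⟨A, hA⟩ : ∃ A, Tendsto f atTop (𝓝 A) := by
    refine cauchySeq_tendsto_of_complete (cauchySeq_of_le_geometric (p : ℝ)⁻¹ 1 hr1 fun m => ?_)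
    rw [dist_eq_norm, norm_sub_rev, one_mul]
    exact step m
  refine ⟨A, fun m => ?_⟩
  have hlim : ‖A - f m‖ ≤ (p : ℝ)⁻¹ ^ m := by
    refine le_of_tendsto ((hA.sub_const (f m)).norm) ?_
    filter_upwards [eventually_ge_atTop m] with k hk
    obtain ⟨d, rfl⟩ := Nat.exists_eq_add_of_le hk
    exact steps m d
  have e : curveB p h s b (n * m + t) - A / (p : PadicComplex p) ^ m =
      -(A - f m) / (p : PadicComplex p) ^ m := by
    simp only [hf]; field_simp; ring
  rw [e, norm_div_pow, norm_neg]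
  refine le_trans (mul_le_mul_of_nonneg_left hlim (by positivity)) (le_of_eq ?_)
  rw [← mul_pow, mul_inv_cancel₀ hpR.ne', one_pow]

theorem sum_range_mul {M : Type} [AddCommMonoid M] (n L : ℕ) (g : ℕ → M) :
    ∑ N ∈ range (n * L), g N = ∑ m ∈ range L, ∑ t ∈ range n, g (n * m + t) := by
  induction L with
  | zero => simp
  | succ L ih => rw [Nat.mul_succ, sum_range_add, sum_range_succ, ih]

/-- The core estimate. -/
theorem norm_core (hh : 1 ≤ h) (s : ℕ) (hb : ∀ j, ‖b j‖ ≤ 1)
    (A : Fin n → PadicComplex p)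
    (hA : ∀ (t : Fin n) (m : ℕ),
      ‖curveB p h s b (n * m + t) - A t / (p : PadicComplex p) ^ m‖ ≤ 1)
    {α : PadicComplex p} {r : ℝ} (hr : r ≤ 1) (hα : ‖α‖ ≤ r) (l : ℕ) :
    ‖(∑ j ∈ range (n * (2 * l)), I.plog p h (n * (2 * l)) ((b j * α ^ p ^ j) ^ p ^ s)) -
      ∑ t : Fin n, A t * I.plog p n (2 * l) (α ^ p ^ (t : ℕ))‖ ≤
      max 1 ((p : ℝ) ^ (n * (2 * l)) * r ^ p ^ (n * (2 * l))) := by
  have hp1 : 1 ≤ (p : ℝ) := by exact_mod_cast (Fact.out : p.Prime).one_le
  have hr0 : 0 ≤ r := (norm_nonneg α).trans hα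
  set D := n * (2 * l) with hD
  set f := fun j i : ℕ =>
    b j ^ p ^ (s + h * i) * α ^ p ^ (j + (s + h * i)) / (p : PadicComplex p) ^ i with hfdef
  have hplog : ∀ j, I.plog p h D ((b j * α ^ p ^ j) ^ p ^ s) = ∑ i ∈ range D, f j i := by
    intro j
    refine sum_congr rfl fun i _ => ?_
    simp only [hfdef]
    rw [mul_pow, mul_pow]
    simp only [← pow_mul, ← pow_add, add_assoc]
  have hsmall : ∑ j ∈ range D, ∑ i ∈ range D, (if j + (s + h * i) < D then f j i else 0) =
      ∑ N ∈ range D, curveB p h s b N * α ^ p ^ N := by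
    simp only [curveB, sum_mul]
    rw [sum_sigma', sum_sigma']
    refine sum_bij_ne_zero (fun z _ _ => ⟨z.1 + (s + h * z.2), z.2⟩) ?_ ?_ ?_ ?_
    · rintro ⟨j, i⟩ hz hne
      simp only [mem_sigma, mem_range] at hz ⊢
      have hlt : j + (s + h * i) < D := by
        by_contra hge
        exact hne (if_neg hge)
      have := Nat.le_mul_of_pos_left i hh
      omega
    · rintro ⟨j, i⟩ hz _ ⟨j', i'⟩ hz' _ he
      simp only [Sigma.mk.injEq, heq_eq_eq] at he
      obtain ⟨he1, rfl⟩ := he
      simp only [Sigma.mk.injEq, heq_eq_eq, and_true]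
      omega
    · rintro ⟨N, i⟩ hz hne
      simp only [mem_sigma, mem_range] at hz
      have hle : s + h * i ≤ N := by
        by_contra hgt
        exact hne (by simp only; rw [if_neg hgt, zero_mul])
      refine ⟨⟨N - (s + h * i), i⟩, ?_, ?_, ?_⟩
      · simp only [mem_sigma, mem_range]; omega
      · simp only [hfdef] at hne ⊢
        rw [if_pos hle] at hne
        rw [if_pos (by omega), Nat.sub_add_cancel hle]
        convert hne using 1
        ring
      · simp only [Sigma.mk.injEq, heq_eq_eq, and_true]; omega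
    · rintro ⟨j, i⟩ hz hne
      simp only [hfdef]
      have hlt : j + (s + h * i) < D := by
        by_contra hge
        exact hne (if_neg hge)
      rw [if_pos hlt, if_pos (Nat.le_add_left _ _), Nat.add_sub_cancel]
      ring
  have hbig : ‖(∑ j ∈ range D, ∑ i ∈ range D, f j i) -
      ∑ j ∈ range D, ∑ i ∈ range D, (if j + (s + h * i) < D then f j i else 0)‖ ≤
      (p : ℝ) ^ D * r ^ p ^ D := by
    rw [← sum_sub_distrib]
    refine IsUltrametricDist.norm_sum_le_of_forall_le_of_nonneg (by positivity) fun j _ => ?_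
    rw [← sum_sub_distrib]
    refine IsUltrametricDist.norm_sum_le_of_forall_le_of_nonneg (by positivity) fun i hi => ?_
    split_ifs with hlt
    · rw [sub_self, norm_zero]; positivity
    · rw [sub_zero, hfdef, norm_div_pow, norm_mul, norm_pow, norm_pow]
      refine mul_le_mul (pow_le_pow_right₀ hp1 (mem_range.1 hi).le)
        ((mul_le_of_le_one_left (pow_nonneg (norm_nonneg _) _)
          (pow_le_one₀ (norm_nonneg _) (hb j))).trans ?_) (by positivity) (by positivity)
      exact (pow_le_pow_left₀ (norm_nonneg _) hα _).trans (pow_le_pow_of_le_one hr0 hr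
        (Nat.pow_le_pow_right (Fact.out : p.Prime).pos (by omega)))
  have hmain : ‖(∑ N ∈ range D, curveB p h s b N * α ^ p ^ N) -
      ∑ t : Fin n, A t * I.plog p n (2 * l) (α ^ p ^ (t : ℕ))‖ ≤ 1 := by
    simp only [I.plog, mul_sum]
    rw [hD, sum_range_mul, Finset.sum_comm (s := (univ : Finset (Fin n))), ← sum_sub_distrib]
    refine IsUltrametricDist.norm_sum_le_of_forall_le_of_nonneg zero_le_one fun m _ => ?_
    rw [← Fin.sum_univ_eq_sum_range
      (fun t => curveB p h s b (n * m + t) * α ^ p ^ (n * m + t)) n, ← sum_sub_distrib]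
    refine IsUltrametricDist.norm_sum_le_of_forall_le_of_nonneg zero_le_one fun t _ => ?_
    rw [← pow_mul α, ← pow_mul p n m, ← pow_add, Nat.add_comm (t : ℕ) (n * m),
      ← mul_div_assoc, ← div_mul_eq_mul_div, ← sub_mul, norm_mul, norm_pow]
    exact mul_le_one₀ (hA t m) (pow_nonneg (norm_nonneg _) _)
      (pow_le_one₀ (norm_nonneg _) (hα.trans hr))
  simp only [hplog]
  rw [show ∀ a c d : PadicComplex p, a - d = (a - c) + (c - d) from fun a c d => by ring]
  · refine (IsUltrametricDist.norm_add_le_max _ _).trans (max_le (hbig.trans (le_max_right _ _)) ?_)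
    rw [hsmall]
    exact hmain.trans (le_max_left _ _)

variable {C : Type} [NontriviallyNormedField C] [IsUltrametricDist C] [CharP C p] [IsAlgClosed C]
  [CompleteSpace C]

/-- The sum of points of C_p in the Honda lift. -/
def nest (G : FormalGroup ℤ_[p]) : List (PadicComplex p) → PadicComplex p
  | [] => 0
  | a :: as => mveval (I.jP p) G.toPowerSeries ![a, nest G as]

theorem norm_nest_le (G : FormalGroup ℤ_[p]) {r : ℝ} (hr0 : 0 ≤ r) (hr : r ≤ 1) :
    ∀ L : List (PadicComplex p), (∀ x ∈ L, ‖x‖ ≤ r) → ‖nest G L‖ ≤ r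
  | [], _ => by simpa [nest] using hr0
  | a :: as, hL => by
    refine Eval.norm_mveval_le_max I.norm_jP _ G.zero_constantCoeff hr0 hr (fun i => ?_)
    fin_cases i
    · exact hL a (by simp)
    · exact norm_nest_le G hr0 hr as fun x hx => hL x (by simp [hx])

theorem sharp_pointSum (T : Untilt p C) (G : FormalGroup ℤ_[p]) {r : ℝ} (hr0 : 0 ≤ r) (hr : r < 1) :
    ∀ L : List C, (∀ x ∈ L, ‖x‖ ≤ r) →
      ‖T.sharp (pointSum (hondaIn G C) L) - nest G (L.map T.sharp)‖ ≤ (p : ℝ)⁻¹
  | [], _ => by simp [pointSum, nest, I.sharp_zero T]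
  | a :: as, hL => by
    have ha : ‖a‖ ≤ r := hL a (by simp)
    have has : ∀ x ∈ as, ‖x‖ ≤ r := fun x hx => hL x (by simp [hx])
    set S := pointSum (hondaIn G C) as
    have hS : ‖S‖ ≤ r := I.norm_pointSum_le G hr0 hr.le as has
    have hN : ‖nest G (as.map T.sharp)‖ ≤ r := norm_nest_le G hr0 hr.le _ fun x hx => by
      obtain ⟨y, hy, rfl⟩ := List.mem_map.1 hx
      rw [T.norm_sharp _ ((has y hy).trans hr.le)]; exact has y hy
    have hsa : ‖T.sharp a‖ ≤ r := by rw [T.norm_sharp _ (ha.trans hr.le)]; exact ha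
    have hsS : ‖T.sharp S‖ ≤ r := by rw [T.norm_sharp _ (hS.trans hr.le)]; exact hS
    have h1 := I.sharp_mveval T G.toPowerSeries ![a, S] (fun i => by
      fin_cases i <;> [exact ha.trans_lt hr; exact hS.trans_lt hr])
    rw [← I.gadd_eq, show (fun i => T.sharp (![a, S] i)) = ![T.sharp a, T.sharp S] by
      funext i; fin_cases i <;> rfl] at h1
    have h2 : ‖mveval (I.jP p) G.toPowerSeries ![T.sharp a, T.sharp S] -
        mveval (I.jP p) G.toPowerSeries ![T.sharp a, nest G (as.map T.sharp)]‖ ≤ (p : ℝ)⁻¹ := by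
      refine EF.norm_mveval_sub_le I.norm_jP I.norm_jP
        (fun i => by fin_cases i <;> [exact hsa.trans_lt hr; exact hsS.trans_lt hr])
        (fun i => by fin_cases i <;> [exact hsa.trans_lt hr; exact hN.trans_lt hr])
        (by positivity) (fun k => by simp) (fun i => ?_)
      fin_cases i
      · simp
      · exact sharp_pointSum T G hr0 hr as has
    simp only [pointSum, List.map_cons, nest]
    rw [show ∀ x y z : PadicComplex p, x - z = (x - y) + (y - z) from fun x y z => by ring]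
    exact (IsUltrametricDist.norm_add_le_max _ _).trans (max_le h1 h2)

theorem plog_nest (hh : 1 ≤ h) {G : FormalGroup ℤ_[p]} (hG : IsHondaLift h G) {r : ℝ} (hr0 : 0 ≤ r)
    (hr : r < 1) (M : ℕ) : ∀ L : List (PadicComplex p), (∀ x ∈ L, ‖x‖ ≤ r) →
      ‖I.plog p h M (nest G L) - (L.map (I.plog p h M)).sum‖ ≤ (p : ℝ) ^ M * r ^ (p ^ h) ^ M
  | [], _ => by
    have : I.plog p h M (0 : PadicComplex p) = 0 :=
      sum_eq_zero fun i _ => by simp [(Fact.out : p.Prime).ne_zero]
    simp only [nest, List.map_nil, List.sum_nil, this, sub_zero, norm_zero]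
    positivity
  | a :: as, hL => by
    have has : ∀ x ∈ as, ‖x‖ ≤ r := fun x hx => hL x (by simp [hx])
    have h1 := I.plog_defect hh hG a (nest G as) hr (hL a (by simp))
      (norm_nest_le G hr0 hr.le as has) M
    have h2 := plog_nest hh hG hr0 hr M as has
    simp only [nest, List.map_cons, List.sum_cons]
    rw [show ∀ x u v w : PadicComplex p, x - (u + w) = (x - u - v) + (v - w) from
      fun x u v w => by ring]
    exact (IsUltrametricDist.norm_add_le_max _ _).trans (max_le h1 h2)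

theorem pointSum_pow (G : FormalGroup ℤ_[p]) (e : ℕ) :
    ∀ L : List C, (∀ x ∈ L, ‖x‖ < 1) → pointSum (hondaIn G C) L ^ p ^ e =
      pointSum (hondaIn G C) (L.map fun x => x ^ p ^ e)
  | [], _ => by simp [pointSum, (Fact.out : p.Prime).ne_zero]
  | a :: as, hL => by
    have has : ∀ x ∈ as, ‖x‖ < 1 := fun x hx => hL x (by simp [hx])
    simp only [pointSum, List.map_cons]
    rw [I.pow_gadd G (hL a (by simp)) (I.norm_pointSum_lt G as has), pointSum_pow G e as has]

omit [CompleteSpace C] in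
theorem term_sum_gen (T : Untilt p C) (k s : ℕ) {y : C} (hy : ‖y‖ ≤ 1) (l M : ℕ) :
    ∑ j ∈ Finset.Ico (-(l : ℤ)) ((M : ℤ) - l), I.term T k s y j = (p : PadicComplex p) ^ l *
      I.plog p k M (T.sharp (ppow (p := p) y ((s : ℤ) - k * l))) := by
  have hpC : (p : PadicComplex p) ≠ 0 := p_ne_zero_Cp
  have e : Finset.Ico (-(l : ℤ)) ((M : ℤ) - l) =
      (Finset.range M).image fun i : ℕ => (i : ℤ) - l := by
    ext j
    simp only [Finset.mem_Ico, Finset.mem_image, Finset.mem_range]
    constructor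
    · intro hj; exact ⟨(j + l).toNat, by omega, by omega⟩
    · rintro ⟨i, hi, rfl⟩; omega
  rw [e, Finset.sum_image fun a _ b _ h => by
      have : ((a : ℤ)) - l = (b : ℤ) - l := h
      omega, I.plog, Finset.mul_sum]
  refine Finset.sum_congr rfl fun i _ => ?_
  rw [I.term, show (k : ℤ) * ((i : ℤ) - l) + (s : ℤ) = ((s : ℤ) - k * l) + ((k * i : ℕ) : ℤ) by
    push_cast; ring, I.ppow_add_nat, I.sharp_pow T (I.norm_ppow_le_one hy _), neg_sub,
    zpow_sub₀ hpC, zpow_natCast, zpow_natCast, ← pow_mul p k i]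
  ring

end Vale.Agent.P217.Hom
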