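import Vale.Agent.P217.Hom.Congr
import Vale.Agent.P217.Hom.Linear

/-!
# P217, block HOM: the linearisation of a map close to a digit hom
-/

noncomputable section

namespace Vale.Agent.P217.Hom

open Filter Topology

variable {p n h : ℕ} [Fact p.Prime] {C : Type} [NontriviallyNormedField C] [IsUltrametricDist C]
  [CompleteSpace C] [IsAlgClosed C] [CharP C p]

omit [IsAlgClosed C] in
/-- A digit series at a small point is close to the sum of its first values. -/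
theorem peval_digitSeries_close (G : FormalGroup ℤ_[p]) {a : ℕ → C} (ha : ∀ j, ‖a j‖ ≤ 1) {u : C}
    (hu : ‖u‖ < 1) (D : ℕ) :
    ‖peval (RingHom.id C) (digitSeries p (hondaIn G C) a) u -
      pointSum (hondaIn G C) ((List.range D).map fun j => a j * u ^ p ^ j)‖ ≤ ‖u‖ ^ p ^ D := by
  set aO : ℕ → unitBall C := fun j => ⟨a j, ha j⟩
  set i := digitSeries p (hondaIn G (unitBall C)) aO with hi
  set S := seriesSum (hondaIn G (unitBall C)) (dList p aO D) with hS
  have hj : ∀ r, ‖(unitBall C).subtype r‖ ≤ 1 := fun r => r.2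
  have e1 : peval (RingHom.id C) (digitSeries p (hondaIn G C) a) u =
      peval (unitBall C).subtype i u := by
    rw [← RingHom.id_comp (unitBall C).subtype, ← Eval.peval_map, hi, map_digitSeries, map_hondaIn]
    rfl
  have e2 : pointSum (hondaIn G C) ((List.range D).map fun j => a j * u ^ p ^ j) =
      peval (unitBall C).subtype S u := by
    rw [hS, EF.peval_seriesSum hj hu (constantCoeff_dList p aO D), map_hondaIn, dList, List.map_map]
    refine congrArg _ (List.map_congr_left fun j _ => ?_)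
    simp [Eval.peval_C_mul_X_pow, aO]
  rw [e1, e2, ← ((EF.hasSum_peval hj i hu).sub (EF.hasSum_peval hj S hu)).tsum_eq]
  refine IsUltrametricDist.norm_tsum_le_of_forall_le_of_nonneg (by positivity) fun k => ?_
  rw [← sub_mul, ← map_sub, norm_mul, norm_pow]
  by_cases hk : k < p ^ D
  · rw [hi, hS, coeff_digitSeries_eq (hondaIn G (unitBall C)) p aO hk, sub_self, map_zero, norm_zero,
      zero_mul]
    positivity
  · exact (mul_le_of_le_one_left (by positivity) (hj _)).trans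
      (pow_le_pow_of_le_one (norm_nonneg _) hu.le (not_lt.1 hk))

/-- The estimate at one point. -/
theorem norm_estimate (T : Untilt p C) (hh : 1 ≤ h) {Gh : FormalGroup ℤ_[p]}
    (hGh : IsHondaLift h Gh) {a : ℕ → C} (ha : ∀ j, ‖a j‖ ≤ 1) {A : Fin n → PadicComplex p} (s : ℕ)
    (hA : ∀ (t : Fin n) (m : ℕ), ‖curveB p h s (fun j => T.sharp (a j)) (n * m + t) -
      A t / (p : PadicComplex p) ^ m‖ ≤ 1)
    {u w : C} (hu : ‖u‖ < 1) (hw : ‖w‖ < 1)
    (hwi : ‖w - peval (RingHom.id C) (digitSeries p (hondaIn Gh C) a) u‖ ≤ (p : ℝ)⁻¹) (l : ℕ)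
    (hsmall : ‖u‖ ^ p ^ (n * (2 * l)) ≤ (p : ℝ)⁻¹) :
    ‖I.plog p h (n * (2 * l)) (T.sharp (w ^ p ^ s)) -
      ∑ t : Fin n, A t * I.plog p n (2 * l) (T.sharp u ^ p ^ (t : ℕ))‖ ≤
      max 1 ((p : ℝ) ^ (n * (2 * l)) * ‖u‖ ^ p ^ (n * (2 * l))) := by
  have hp := (Fact.out : p.Prime)
  have hinv : (p : ℝ)⁻¹ < 1 := I.inv_p_lt_one
  have hpow1 : ∀ x : C, ‖x‖ ≤ 1 → ∀ e : ℕ, ‖x ^ e‖ ≤ 1 := fun x hx e => by
    rw [norm_pow]; exact pow_le_one₀ (norm_nonneg _) hx
  set D := n * (2 * l)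
  set r := ‖u‖ with hr
  have hr0 : 0 ≤ r := norm_nonneg _
  set L := (List.range D).map fun j => a j * u ^ p ^ j with hL
  have hLr : ∀ x ∈ L, ‖x‖ ≤ r := fun x hx => by
    obtain ⟨j, -, rfl⟩ := List.mem_map.1 hx
    rw [norm_mul, norm_pow]
    exact (mul_le_of_le_one_left (by positivity) (ha j)).trans
      (pow_le_of_le_one hr0 hu.le (pow_ne_zero _ hp.ne_zero))
  have hL1 : ∀ x ∈ L, ‖x‖ < 1 := fun x hx => (hLr x hx).trans_lt hu
  set L' := L.map fun x => x ^ p ^ s with hL'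
  have hL'r : ∀ x ∈ L', ‖x‖ ≤ r := fun x hx => by
    obtain ⟨y, hy, rfl⟩ := List.mem_map.1 hx
    rw [norm_pow]
    exact (pow_le_of_le_one (norm_nonneg _) (hL1 y hy).le (pow_ne_zero _ hp.ne_zero)).trans (hLr y hy)
  have hL'm : ∀ x ∈ L'.map T.sharp, ‖x‖ ≤ r := fun x hx => by
    obtain ⟨y, hy, rfl⟩ := List.mem_map.1 hx
    rw [T.norm_sharp _ ((hL'r y hy).trans hu.le)]; exact hL'r y hy
  set S := pointSum (hondaIn Gh C) L
  have hS : ‖S‖ < 1 := I.norm_pointSum_lt Gh L hL1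
  have hwS : ‖w - S‖ ≤ (p : ℝ)⁻¹ := by
    rw [show w - S = (w - peval (RingHom.id C) (digitSeries p (hondaIn Gh C) a) u) +
      (peval (RingHom.id C) (digitSeries p (hondaIn Gh C) a) u - S) by ring]
    exact (IsUltrametricDist.norm_add_le_max _ _).trans
      (max_le hwi ((peval_digitSeries_close Gh ha hu D).trans hsmall))
  have hSs : S ^ p ^ s = pointSum (hondaIn Gh C) L' := pointSum_pow Gh _ L hL1
  set N := nest Gh (L'.map T.sharp)
  have hN : ‖N‖ ≤ 1 := (norm_nest_le Gh hr0 hu.le _ hL'm).trans hu.le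
  have hws : ‖w ^ p ^ s‖ ≤ 1 := hpow1 _ hw.le _
  have hclose : ‖T.sharp (w ^ p ^ s) - N‖ ≤ (p : ℝ)⁻¹ := by
    rw [show T.sharp (w ^ p ^ s) - N = (T.sharp (w ^ p ^ s) - T.sharp (S ^ p ^ s)) +
        (T.sharp (S ^ p ^ s) - N) by ring]
    refine (IsUltrametricDist.norm_add_le_max _ _).trans (max_le
      (I.sharp_close T hws (hpow1 _ hS.le _)
        ((EF.norm_pow_sub_pow_le hw.le hS.le _).trans hwS)) ?_)
    rw [hSs]
    exact sharp_pointSum T Gh hr0 hu L' hL'r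
  have h1 := I.plog_close hh (by rw [T.norm_sharp _ hws]; exact hws) hN hclose D
  have h2 := plog_nest hh hGh hr0 hu D (L'.map T.sharp) hL'm
  have hsum : ((L'.map T.sharp).map (I.plog p h D)).sum =
      ∑ j ∈ Finset.range D, I.plog p h D ((T.sharp (a j) * T.sharp u ^ p ^ j) ^ p ^ s) := by
    rw [hL', hL, List.map_map, List.map_map, List.map_map, ← List.sum_toFinset _ List.nodup_range,
      List.toFinset_range]
    refine Finset.sum_congr rfl fun j _ => ?_
    simp only [Function.comp_apply]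
    rw [I.sharp_pow T, T.sharp_mul _ _ (ha j) (hpow1 _ hu.le _), I.sharp_pow T hu.le]
    rw [norm_mul]
    exact mul_le_one₀ (ha j) (norm_nonneg _) (hpow1 _ hu.le _)
  have h3 := norm_core hh s (fun j => (T.norm_sharp _ (ha j)).le.trans (ha j)) A hA
    (α := T.sharp u) hu.le (T.norm_sharp _ hu.le).le l
  rw [hsum] at h2
  have hexp : r ^ (p ^ h) ^ D ≤ r ^ p ^ D := pow_le_pow_of_le_one hr0 hu.le
    (Nat.pow_le_pow_left (Nat.le_self_pow (by omega) p) D)
  rw [show ∀ x y z v : PadicComplex p, x - v = (x - y) + ((y - z) + (z - v)) from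
    fun x y z v => by ring]
  exact (IsUltrametricDist.norm_add_le_max _ _).trans (max_le
    (h1.trans (hinv.le.trans (le_max_left _ _)))
    ((IsUltrametricDist.norm_add_le_max _ _).trans (max_le
      (h2.trans ((mul_le_mul_of_nonneg_left hexp (by positivity)).trans (le_max_right _ _))) h3)))

theorem tendsto_err {ρ : ℝ} (hρ0 : 0 ≤ ρ) (hρ1 : ρ < 1) (hn : 1 ≤ n) :
    Tendsto (fun l : ℕ => (p : ℝ) ^ (n * (2 * l)) * ρ ^ p ^ (n * l)) atTop (𝓝 0) := by
  have hp1 := (Fact.out : p.Prime).one_lt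
  have hg : Tendsto (fun l : ℕ => p ^ (n * l)) atTop atTop :=
    (tendsto_pow_atTop_atTop_of_one_lt hp1).comp
      (tendsto_id.const_mul_atTop' (by omega : 0 < n))
  refine ((tendsto_pow_const_mul_const_pow_of_lt_one 2 hρ0 hρ1).comp hg).congr fun l => ?_
  simp only [Function.comp_apply]
  push_cast
  rw [← pow_mul]
  ring

theorem tendsto_Ico_gen (hn : 1 ≤ n) :
    Tendsto (fun l : ℕ => Finset.Ico (-(l : ℤ)) (((n * (2 * l) : ℕ) : ℤ) - l)) atTop atTop := by
  have hge : ∀ l : ℕ, (l : ℤ) ≤ ((n * (2 * l) : ℕ) : ℤ) - l := fun l => by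
    have : 2 * l ≤ n * (2 * l) := Nat.le_mul_of_pos_left _ hn
    omega
  refine tendsto_atTop_finset_of_monotone (fun a b hab => ?_) fun j => ⟨j.natAbs + 1, ?_⟩
  · refine Finset.Ico_subset_Ico (by omega) ?_
    obtain ⟨m, rfl⟩ : ∃ m, n = m + 1 := ⟨n - 1, by omega⟩
    push_cast
    nlinarith [mul_le_mul_of_nonneg_left (show (a : ℤ) ≤ b by omega) (Int.natCast_nonneg m)]
  · have := hge (j.natAbs + 1)
    simp only [Finset.mem_Ico]
    omega

theorem linearisedPin : EF.LinearisedPin := by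
  intro p n h _ C _ _ _ _ _ T Gn Gh hh hhn hGn hGh F hF P a ha hi Φ hΦ hΦq hΦi
  classical
  have hn : 1 ≤ n := by omega
  have hp := (Fact.out : p.Prime)
  have hpR : (0 : ℝ) < p := by exact_mod_cast hp.pos
  have hinv : (p : ℝ)⁻¹ < 1 := I.inv_p_lt_one
  obtain ⟨hc, hc0⟩ := digit_congr hn hh hhn hGn hGh hF P ha hi
  set b : ℕ → PadicComplex p := fun j => T.sharp (a j) with hbdef
  have hb : ∀ j, ‖b j‖ ≤ 1 := fun j => by rw [hbdef, T.norm_sharp _ (ha j)]; exact ha j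
  have hpow1 : ∀ x : C, ‖x‖ ≤ 1 → ∀ e : ℕ, ‖x ^ e‖ ≤ 1 := fun x hx e => by
    rw [norm_pow]; exact pow_le_one₀ (norm_nonneg _) hx
  have hbc : ∀ j, ‖b (j + (n - h)) ^ p ^ h - b j‖ ≤ (p : ℝ)⁻¹ := fun j => by
    simp only [hbdef, ← I.sharp_pow T (ha _)]
    exact I.sharp_close T (hpow1 _ (ha _) _) (ha j) (hc j)
  have hbc0 : ∀ j, j < n - h → ‖b j ^ p ^ h‖ ≤ (p : ℝ)⁻¹ := fun j hj => by
    simp only [hbdef, ← I.sharp_pow T (ha _)]
    rw [T.norm_sharp _ (hpow1 _ (ha _) _)]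
    exact hc0 j hj
  choose A hA using fun (s : Fin h) (t : Fin n) =>
    exists_curve_limit hh hhn (s : ℕ) hb hbc hbc0 (t : ℕ)
  refine ⟨Matrix.of A, fun z hz => funext fun s => ?_⟩
  set ρ := ‖z‖ with hρ
  have hρ0 : 0 ≤ ρ := norm_nonneg _
  set u : ℕ → C := fun l => ppow (p := p) z (-((n * l : ℕ) : ℤ)) with hu
  have hu_pow : ∀ l, u l ^ p ^ (n * l) = z := fun l => by
    rw [hu, ← I.ppow_add_nat, neg_add_cancel, I.ppow_zero]
  have hu1 : ∀ l, ‖u l‖ < 1 := fun l => by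
    by_contra hge
    push Not at hge
    have := one_le_pow₀ (n := p ^ (n * l)) hge
    rw [← norm_pow, hu_pow] at this
    exact absurd hz (not_lt.2 this)
  have hiter : ∀ (l : ℕ) (w : C), ‖w‖ < 1 → Φ (w ^ p ^ (n * l)) = Φ w ^ p ^ (h * l) := by
    intro l
    induction l with
    | zero => intro w _; simp
    | succ l ih =>
      intro w hw
      have hw' : ‖w ^ p ^ (n * l)‖ < 1 := by
        rw [norm_pow]; exact pow_lt_one₀ (norm_nonneg _) hw (pow_ne_zero _ hp.ne_zero)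
      rw [show n * (l + 1) = n * l + n by ring, pow_add, pow_mul, hΦq _ hw', ih w hw, ← pow_mul,
        ← pow_add, show h * l + h = h * (l + 1) by ring]
  -- the roots of the value and of the argument
  have hrootΦ : ∀ l : ℕ, ppow (p := p) (Φ z) (((s : ℕ) : ℤ) - h * l) = Φ (u l) ^ p ^ (s : ℕ) :=
    fun l => I.pow_p_injective (p := p) (h * l) (by
      show ppow (p := p) (Φ z) (((s : ℕ) : ℤ) - h * l) ^ p ^ (h * l) =
        (Φ (u l) ^ p ^ (s : ℕ)) ^ p ^ (h * l)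
      rw [← I.ppow_add_nat, show ((s : ℕ) : ℤ) - h * l + ((h * l : ℕ) : ℤ) = ((s : ℕ) : ℤ) by
        push_cast; ring, I.ppow_ofNat, ← pow_mul, mul_comm, pow_mul, ← hiter l _ (hu1 l), hu_pow])
  have hrootz : ∀ (l : ℕ) (t : Fin n),
      ppow (p := p) z (((t : ℕ) : ℤ) - n * l) = u l ^ p ^ (t : ℕ) :=
    fun l t => I.pow_p_injective (p := p) (n * l) (by
      show ppow (p := p) z (((t : ℕ) : ℤ) - n * l) ^ p ^ (n * l) =
        (u l ^ p ^ (t : ℕ)) ^ p ^ (n * l)
      rw [← I.ppow_add_nat, show ((t : ℕ) : ℤ) - n * l + ((n * l : ℕ) : ℤ) = ((t : ℕ) : ℤ) by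
        push_cast; ring, I.ppow_ofNat, ← pow_mul, mul_comm, pow_mul, hu_pow])
  have hlimL := (I.hasSum_linVec T hh (hΦ z hz) s).comp (tendsto_Ico_gen hn)
  have hlimR : Tendsto (fun l : ℕ => ∑ t : Fin n,
      A s t * ∑ j ∈ Finset.Ico (-(l : ℤ)) l, I.term T n t z j) atTop
      (𝓝 ((Matrix.of A).mulVec (linVec T n z) s)) := by
    refine tendsto_finsetSum _ fun t _ => Tendsto.const_mul _ ?_
    exact (I.hasSum_linVec T hn hz t).comp I.tendsto_Ico_finset
  rw [← sub_eq_zero]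
  refine tendsto_nhds_unique (hlimL.sub hlimR) ?_
  have hsmallev : ∀ᶠ l : ℕ in atTop, ρ ^ p ^ (n * l) ≤ (p : ℝ)⁻¹ := by
    refine (((tendsto_pow_atTop_nhds_zero_of_lt_one hρ0 hz).comp
      ((tendsto_pow_atTop_atTop_of_one_lt hp.one_lt).comp
        (tendsto_id.const_mul_atTop' (show 0 < n by omega)))).eventually
      (Iic_mem_nhds (inv_pos.2 hpR))).mono fun l hl => hl
  rw [tendsto_zero_iff_norm_tendsto_zero]
  refine squeeze_zero' (Eventually.of_forall fun l => norm_nonneg _) ?_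
    (show Tendsto (fun l : ℕ => max ((p : ℝ)⁻¹ ^ l)
      ((p : ℝ) ^ (n * (2 * l)) * ρ ^ p ^ (n * l))) atTop (𝓝 0) by
      simpa using (tendsto_pow_atTop_nhds_zero_of_lt_one (inv_nonneg.2 hpR.le) hinv).max
        (tendsto_err (p := p) hρ0 hz hn))
  filter_upwards [hsmallev] with l hl
  set D := n * (2 * l) with hD
  set r := ‖u l‖ with hr
  have hr1 : r < 1 := hu1 l
  have hr0 : 0 ≤ r := norm_nonneg _
  have hrD : r ^ p ^ D = ρ ^ p ^ (n * l) := by
    rw [show D = n * l + n * l by rw [hD]; ring, pow_add, pow_mul, hr, ← norm_pow, hu_pow]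
  show ‖(∑ j ∈ Finset.Ico (-(l : ℤ)) (((n * (2 * l) : ℕ) : ℤ) - l), I.term T h s (Φ z) j) -
    ∑ t : Fin n, A s t * ∑ j ∈ Finset.Ico (-(l : ℤ)) l, I.term T n t z j‖ ≤ _
  simp only [I.term_sum_eq T _ hz.le, hrootz, I.sharp_pow T (hu1 l).le]
  rw [term_sum_gen T h s (hΦ z hz).le l D, hrootΦ l]
  simp only [mul_left_comm (A s _), ← Finset.mul_sum, ← mul_sub]
  rw [norm_mul, norm_pow, I.norm_p]
  set α := T.sharp (u l) with hα
  have hkey := norm_estimate T hh hGh ha (s : ℕ) (hA s) (hu1 l) (hΦ _ (hu1 l)) (hΦi _ (hu1 l)) l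
    (by rw [← hD, ← hr, hrD]; exact hl)
  refine le_trans (mul_le_mul_of_nonneg_left hkey (by positivity)) ?_
  rw [hrD, mul_max_of_nonneg _ _ (by positivity), mul_one]
  exact max_le_max le_rfl (mul_le_of_le_one_left (by positivity)
    (pow_le_one₀ (by positivity) hinv.le))

end Vale.Agent.P217.Hom
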