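import Vale.Agent.P217.A.Coeff
import Vale.Agent.P217.Interfaces

/-!
# P217, block HOM: digit series determine their digits
-/

noncomputable section

namespace Vale.Agent.P217.Hom

open PowerSeries

variable {R : Type} [CommRing R] (G : FormalGroup R) {a b b' : PowerSeries R}

theorem hasSubst_pair (ha : constantCoeff a = 0) (hb : constantCoeff b = 0) :
    MvPowerSeries.HasSubst (![a, b] : Fin 2 → MvPowerSeries Unit R) :=
  MvPowerSeries.hasSubst_of_constantCoeff_zero fun s => by
    fin_cases s
    · exact ha
    · exact hb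

/-- Only the monomials that tell the arguments apart matter. -/
theorem coeff_subst_congr (ha : constantCoeff a = 0) (hb : constantCoeff b = 0)
    (hb' : constantCoeff b' = 0) (g : MvPowerSeries (Fin 2) R) {N : ℕ}
    (hd : ∀ d : Fin 2 →₀ ℕ, MvPowerSeries.coeff d g = 0 ∨
      coeff N (a ^ d 0 * b ^ d 1) = coeff N (a ^ d 0 * b' ^ d 1)) :
    coeff N (MvPowerSeries.subst ![a, b] g : PowerSeries R) =
      coeff N (MvPowerSeries.subst ![a, b'] g : PowerSeries R) := by
  show MvPowerSeries.coeff (Finsupp.single () N) (MvPowerSeries.subst ![a, b] g) =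
    MvPowerSeries.coeff (Finsupp.single () N) (MvPowerSeries.subst ![a, b'] g)
  rw [MvPowerSeries.coeff_subst (hasSubst_pair ha hb),
    MvPowerSeries.coeff_subst (hasSubst_pair ha hb')]
  refine finsum_congr fun d => ?_
  rw [Finsupp.prod_fintype _ _ (fun i => pow_zero _), Finsupp.prod_fintype _ _ (fun i => pow_zero _)]
  simp only [Fin.prod_univ_two, Matrix.cons_val_zero, Matrix.cons_val_one, Matrix.cons_val_fin_one]
  rcases hd d with h | h
  · simp [h]
  · exact congrArg (MvPowerSeries.coeff d g • ·) h

theorem X_pow_dvd_mul_pow_sub (ha : constantCoeff a = 0) (hb : constantCoeff b = 0)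
    (hb' : constantCoeff b' = 0) {N : ℕ} (h : X ^ N ∣ b - b') (i j : ℕ) :
    X ^ (N + (i + j - 1)) ∣ a ^ i * (b ^ j - b' ^ j) := by
  rcases Nat.eq_zero_or_pos j with rfl | hj
  · simp
  have hX : ∀ {c : PowerSeries R}, constantCoeff c = 0 → X ∣ c := fun h => X_dvd_iff.2 h
  have hgeom : X ^ (N + (j - 1)) ∣ b ^ j - b' ^ j := by
    rw [← (Commute.all b b').mul_geom_sum₂, pow_add]
    refine mul_dvd_mul h (Finset.dvd_sum fun k hk => ?_)
    rw [Finset.mem_range] at hk
    have e := mul_dvd_mul (pow_dvd_pow_of_dvd (hX hb) k) (pow_dvd_pow_of_dvd (hX hb') (j - 1 - k))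
    rwa [← pow_add, show k + (j - 1 - k) = j - 1 by omega] at e
  have e := mul_dvd_mul (pow_dvd_pow_of_dvd (hX ha) i) hgeom
  rwa [← pow_add, show i + (N + (j - 1)) = N + (i + j - 1) by omega] at e

theorem X_pow_dvd_subst_sub (ha : constantCoeff a = 0) (hb : constantCoeff b = 0)
    (hb' : constantCoeff b' = 0) {N : ℕ} (h : X ^ N ∣ b - b') :
    X ^ N ∣ (MvPowerSeries.subst ![a, b] G.toPowerSeries : PowerSeries R) -
      MvPowerSeries.subst ![a, b'] G.toPowerSeries := by
  refine X_pow_dvd_iff.2 fun m hm => ?_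
  rw [map_sub, sub_eq_zero]
  refine coeff_subst_congr ha hb hb' _ fun d => Or.inr ?_
  rw [← sub_eq_zero, ← map_sub, ← mul_sub]
  exact X_pow_dvd_iff.1 (X_pow_dvd_mul_pow_sub ha hb hb' h _ _) m (by omega)

theorem coeff_subst_sub (ha : constantCoeff a = 0) (hb : constantCoeff b = 0)
    (hb' : constantCoeff b' = 0) {N : ℕ} (h : X ^ N ∣ b - b') :
    coeff N ((MvPowerSeries.subst ![a, b] G.toPowerSeries : PowerSeries R) -
      MvPowerSeries.subst ![a, b'] G.toPowerSeries) = coeff N (b - b') := by
  set g := G.toPowerSeries - MvPowerSeries.X 1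
  have hg : G.toPowerSeries = MvPowerSeries.X 1 + g := by rw [add_sub_cancel]
  have key : coeff N (MvPowerSeries.subst ![a, b] g : PowerSeries R) =
      coeff N (MvPowerSeries.subst ![a, b'] g : PowerSeries R) := by
    refine coeff_subst_congr ha hb hb' _ fun d => ?_
    by_cases hd : d 0 + d 1 ≤ 1
    · by_cases hd1 : d 1 = 1
      · left
        obtain rfl : d = Finsupp.single 1 1 :=
          Finsupp.ext fun i => by fin_cases i <;> simp <;> omega
        simp [g, G.lin_coeff_Y]
      · right
        simp [show d 1 = 0 by omega]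
    · right
      rw [← sub_eq_zero, ← map_sub, ← mul_sub]
      exact X_pow_dvd_iff.1 (X_pow_dvd_mul_pow_sub ha hb hb' h _ _) N (by omega)
  rw [hg, MvPowerSeries.subst_add (hasSubst_pair ha hb),
    MvPowerSeries.subst_add (hasSubst_pair ha hb'), MvPowerSeries.subst_X (hasSubst_pair ha hb),
    MvPowerSeries.subst_X (hasSubst_pair ha hb'), map_sub, map_add, map_add, key, map_sub]
  simp only [Matrix.cons_val_one, Matrix.cons_val_fin_one]
  ring

theorem subst_zero_zero : MvPowerSeries.subst ![(0 : PowerSeries R), 0] G.toPowerSeries =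
    (0 : PowerSeries R) :=
  G.add_zero (HasSubst.of_constantCoeff_zero' (map_zero _))

theorem seriesSum_append_dvd {N : ℕ} {L' : List (PowerSeries R)}
    (hL' : ∀ f ∈ L', constantCoeff f = 0) :
    ∀ {L : List (PowerSeries R)}, (∀ f ∈ L, constantCoeff f = 0) →
      X ^ N ∣ seriesSum G L' → X ^ N ∣ seriesSum G (L ++ L') - seriesSum G L
  | [], _, h => by simpa [seriesSum] using h
  | f :: L, hL, h => by
    refine X_pow_dvd_subst_sub G (hL f (List.mem_cons_self ..)) (seriesSum_constantCoeff G ?_)
      (seriesSum_constantCoeff G fun g hg => hL g (List.mem_cons_of_mem _ hg))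
      (seriesSum_append_dvd hL' (fun g hg => hL g (List.mem_cons_of_mem _ hg)) h)
    intro g hg
    rcases List.mem_append.1 hg with hg | hg
    · exact hL g (List.mem_cons_of_mem _ hg)
    · exact hL' g hg

theorem seriesSum_coeff_append {N : ℕ} {c : PowerSeries R} (hc : constantCoeff c = 0)
    (hc' : X ^ N ∣ c) : ∀ {L : List (PowerSeries R)}, (∀ f ∈ L, constantCoeff f = 0) →
      coeff N (seriesSum G (L ++ [c]) - seriesSum G L) = coeff N c
  | [], _ => by
    have : seriesSum G [c] = c := G.add_zero (HasSubst.of_constantCoeff_zero' hc)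
    simp [this, seriesSum]
  | f :: L, hL => by
    have hL0 : ∀ g ∈ L, constantCoeff g = 0 := fun g hg => hL g (List.mem_cons_of_mem _ hg)
    have h1 : seriesSum G [c] = c := G.add_zero (HasSubst.of_constantCoeff_zero' hc)
    refine (coeff_subst_sub G (hL f (List.mem_cons_self ..)) (seriesSum_constantCoeff G ?_)
      (seriesSum_constantCoeff G hL0) (seriesSum_append_dvd G (fun g hg => ?_) hL0 (by rw [h1]; exact hc'))).trans
      (seriesSum_coeff_append hc hc' hL0)
    · intro g hg
      rcases List.mem_append.1 hg with hg | hg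
      · exact hL0 g hg
      · rw [List.mem_singleton.1 hg]; exact hc
    · rw [List.mem_singleton.1 hg]; exact hc

variable (p : ℕ) [Fact p.Prime]

/-- The first M terms of a digit series. -/
def dList (t : ℕ → R) (M : ℕ) : List (PowerSeries R) :=
  (List.range M).map fun j => C (t j) * X ^ p ^ j

theorem constantCoeff_dList (t : ℕ → R) (M : ℕ) : ∀ f ∈ dList p t M, constantCoeff f = 0 :=
  fun f hf => by
    obtain ⟨j, -, rfl⟩ := List.mem_map.1 hf
    rw [map_mul, map_pow, constantCoeff_X, zero_pow (pow_ne_zero _ (Fact.out : p.Prime).ne_zero),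
      mul_zero]

omit [Fact p.Prime] in
theorem dList_succ (t : ℕ → R) (M : ℕ) :
    dList p t (M + 1) = dList p t M ++ [C (t M) * X ^ p ^ M] := by
  simp [dList, List.range_succ]

theorem coeff_seriesSum_stable (t : ℕ → R) {N M M' : ℕ} (hM : N < p ^ M) (hMM : M ≤ M') :
    coeff N (seriesSum G (dList p t M')) = coeff N (seriesSum G (dList p t M)) := by
  induction M', hMM using Nat.le_induction with
  | base => rfl
  | succ k hk ih =>
    rw [← ih, dList_succ, ← sub_eq_zero, ← map_sub]
    have hc : constantCoeff (C (t k) * X ^ p ^ k : PowerSeries R) = 0 := by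
      simp [(Fact.out : p.Prime).ne_zero]
    refine X_pow_dvd_iff.1 (seriesSum_append_dvd G (N := p ^ k) (fun g hg => ?_)
      (constantCoeff_dList p t k) ?_) N
      (lt_of_lt_of_le hM (Nat.pow_le_pow_right (Fact.out : p.Prime).pos hk))
    · rw [List.mem_singleton.1 hg]; exact hc
    · show X ^ p ^ k ∣ (MvPowerSeries.subst ![_, (0 : PowerSeries R)] G.toPowerSeries : PowerSeries R)
      rw [G.add_zero (HasSubst.of_constantCoeff_zero' hc)]
      exact dvd_mul_left _ _

theorem coeff_digitSeries_eq (t : ℕ → R) {N M : ℕ} (hM : N < p ^ M) :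
    coeff N (digitSeries p G t) = coeff N (seriesSum G (dList p t M)) := by
  rw [digitSeries, coeff_mk]
  show coeff N (seriesSum G (dList p t (N + 1))) = _
  rcases le_total M (N + 1) with h | h
  · exact coeff_seriesSum_stable G p t hM h
  · refine (coeff_seriesSum_stable G p t ?_ h).symm
    exact lt_trans (Nat.lt_succ_self N) (Nat.lt_pow_self (Fact.out : p.Prime).one_lt)

/-- The coefficient of degree p ^ J determines the digit J given the lower ones. -/
theorem coeff_digitSeries_pow (t : ℕ → R) (J : ℕ) :
    coeff (p ^ J) (digitSeries p G t) = coeff (p ^ J) (seriesSum G (dList p t J)) + t J := by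
  rw [coeff_digitSeries_eq G p t (M := J + 1)
    (Nat.pow_lt_pow_right (Fact.out : p.Prime).one_lt (Nat.lt_succ_self J))]
  have h := seriesSum_coeff_append G (N := p ^ J) (c := C (t J) * X ^ p ^ J)
    (by simp [(Fact.out : p.Prime).ne_zero]) (dvd_mul_left _ _) (constantCoeff_dList p t J)
  rw [← dList_succ, map_sub, sub_eq_iff_eq_add] at h
  rw [h, coeff_C_mul, coeff_X_pow_self, mul_one, add_comm]

theorem digit_unique {t t' : ℕ → R} (h : digitSeries p G t = digitSeries p G t') : t = t' := by
  funext J
  induction J using Nat.strong_induction_on with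
  | _ J ih =>
    have h' := congrArg (coeff (p ^ J)) h
    rw [coeff_digitSeries_pow, coeff_digitSeries_pow,
      show dList p t J = dList p t' J from List.map_congr_left fun j hj => by
        rw [ih j (List.mem_range.1 hj)]] at h'
    exact add_left_cancel h'

/-- The digits moved up by e. -/
def shiftDigits (e : ℕ) (t : ℕ → R) (m : ℕ) : R := if e ≤ m then t (m - e) else 0

theorem seriesSum_zeros_append {L' : List (PowerSeries R)}
    (hL' : ∀ f ∈ L', constantCoeff f = 0) : ∀ {L : List (PowerSeries R)}, (∀ f ∈ L, f = 0) →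
      seriesSum G (L ++ L') = seriesSum G L'
  | [], _ => rfl
  | f :: L, h => by
    show MvPowerSeries.subst ![f, seriesSum G (L ++ L')] G.toPowerSeries = _
    rw [seriesSum_zeros_append hL' fun g hg => h g (List.mem_cons_of_mem _ hg),
      h f (List.mem_cons_self ..)]
    exact G.zero_add (HasSubst.of_constantCoeff_zero' (seriesSum_constantCoeff G hL'))

theorem digitSeries_expand (e : ℕ) (t : ℕ → R) :
    digitSeries p G (shiftDigits e t) =
      expand (p ^ e) (pow_ne_zero e (Fact.out : p.Prime).ne_zero) (digitSeries p G t) := by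
  have hp := (Fact.out : p.Prime)
  ext N
  set M := N + 1
  have hNM : N < p ^ M := lt_trans (Nat.lt_succ_self N) (Nat.lt_pow_self hp.one_lt)
  have hlist : dList p (shiftDigits e t) (e + M) = (List.range e).map (fun _ => (0 : PowerSeries R)) ++
      (dList p t M).map (expand (p ^ e) (pow_ne_zero e hp.ne_zero)) := by
    rw [dList, List.range_add, List.map_append, List.map_map, dList, List.map_map]
    refine congrArg₂ (· ++ ·) (List.map_congr_left fun j hj => ?_)
      (List.map_congr_left fun j _ => ?_)
    · rw [List.mem_range] at hj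
      simp [shiftDigits, Nat.not_le.2 hj]
    · simp [shiftDigits, expand_C, expand_X, ← pow_mul, ← pow_add]
  rw [coeff_digitSeries_eq G p _ (M := e + M)
      (lt_of_lt_of_le hNM (Nat.pow_le_pow_right hp.pos (Nat.le_add_left M e))), hlist,
    seriesSum_zeros_append G ?_ (fun f hf => ?_), seriesSum_expand G _ (constantCoeff_dList p t M),
    coeff_expand, coeff_expand]
  · split_ifs
    · rw [coeff_digitSeries_eq G p t (lt_of_le_of_lt (Nat.div_le_self N _) hNM)]
    · rfl
  · intro f hf
    obtain ⟨g, hg, rfl⟩ := List.mem_map.1 hf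
    rw [← coeff_zero_eq_constantCoeff_apply, coeff_expand]
    simp [constantCoeff_dList p t M g hg]
  · obtain ⟨j, -, rfl⟩ := List.mem_map.1 hf
    rfl

end Vale.Agent.P217.Hom
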