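import Vale.Agent.P217.Hom.Witt

/-!
# P217, block HOM: the digit recursion

Digits a in the unit ball and elements c of the Witt vectors such that the Honda logarithm of the
digit lift is a combination of twists of the logarithm at the point.
-/

noncomputable section

namespace Vale.Agent.P217.Hom

open Finset

variable {p : ℕ} [Fact p.Prime]
variable {C : Type} [NontriviallyNormedField C] [IsUltrametricDist C] [CharP C p]

/-- The numerator of the carry at N. -/
def carryNum (v : ℕ → WB p C) (h : ℕ) (prev : ℕ → unitBall C × WB p C) (N : ℕ) : WB p C :=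
  (if h ≤ N then ((WittVector.frobenius : WB p C →+* WB p C) ^ h) (prev (N - h)).2 else 0) -
    ∑ j ∈ range N, WittVector.teichmuller p (prev j).1 * v (N - j) ^ p ^ j

/-- The carry at N. -/
def carry (v : ℕ → WB p C) (h : ℕ) (prev : ℕ → unitBall C × WB p C) (N : ℕ) : WB p C :=
  Classical.epsilon fun z => (p : WB p C) * z = carryNum v h prev N

/-- The equation of the digit N. -/
def IsDigit (v : ℕ → WB p C) (h : ℕ) (prev : ℕ → unitBall C × WB p C) (N : ℕ) (T : unitBall C) :
    Prop :=
  ((T : C) + red0 p C (carry v h prev N)) ^ p ^ h =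
      red0 p C (v h) ^ p ^ N * (T : C) +
        ∑ j ∈ range N, ((prev j).1 : C) * red0 p C (v (N + h - j)) ^ p ^ j ∧
    (N = 0 → carry v h prev N = 0 → (T : C) ≠ 0)

/-- The next digit and the next element. -/
def next (v : ℕ → WB p C) (h : ℕ) (prev : ℕ → unitBall C × WB p C) (N : ℕ) : unitBall C × WB p C :=
  (Classical.epsilon (IsDigit v h prev N),
    WittVector.teichmuller p (Classical.epsilon (IsDigit v h prev N)) + carry v h prev N)

/-- The digits with their carried versions. -/
def dig (v : ℕ → WB p C) (h : ℕ) : ℕ → unitBall C × WB p C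
  | N => next v h (fun j => if _hj : j < N then dig v h j else (0, 0)) N
decreasing_by exact _hj

/-- The digits. -/
def digA (v : ℕ → WB p C) (h N : ℕ) : unitBall C := (dig v h N).1

/-- The digits with their carries. -/
def digC (v : ℕ → WB p C) (h N : ℕ) : WB p C := (dig v h N).2

variable {v : ℕ → WB p C} {h : ℕ}

omit [CharP C p] in
theorem next_congr (hh : 1 ≤ h) {prev prev' : ℕ → unitBall C × WB p C} {N : ℕ}
    (he : ∀ j < N, prev j = prev' j) : next v h prev N = next v h prev' N := by
  have hnum : carryNum v h prev N = carryNum v h prev' N := by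
    unfold carryNum
    refine congrArg₂ (· - ·) ?_ (sum_congr rfl fun j hj => by rw [he j (mem_range.1 hj)])
    split_ifs with hN
    · rw [he (N - h) (by omega)]
    · rfl
  have hc : carry v h prev N = carry v h prev' N := by unfold carry; rw [hnum]
  have hd : IsDigit v h prev N = IsDigit v h prev' N := by
    funext T
    unfold IsDigit
    rw [hc, sum_congr rfl fun j hj => by rw [he j (mem_range.1 hj)]]
  unfold next
  rw [hd, hc]

omit [CharP C p] in
theorem dig_eq (hh : 1 ≤ h) (N : ℕ) : dig v h N = next v h (dig v h) N := by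
  rw [dig]
  exact next_congr hh fun j hj => dif_pos hj

omit [CharP C p] in
theorem digC_eq (hh : 1 ≤ h) (N : ℕ) :
    digC v h N = WittVector.teichmuller p (digA v h N) + carry v h (dig v h) N := by
  rw [digC, digA, dig_eq hh N]
  rfl

theorem red0_frobenius_iterate (k : ℕ) (x : WB p C) :
    red0 p C (((WittVector.frobenius : WB p C →+* WB p C) ^ k) x) = red0 p C x ^ p ^ k := by
  induction k with
  | zero => simp
  | succ k ih =>
    rw [pow_succ' _ k, RingHom.coe_mul, Function.comp_apply, red0_frobenius, ih, ← pow_mul,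
      ← pow_succ]

variable [IsAlgClosed C]

theorem exists_isDigit (hh : 1 ≤ h) (hx : red0 p C (v h) ≠ 0)
    (prev : ℕ → unitBall C × WB p C) (N : ℕ) : ∃ T, IsDigit v h prev N T := by
  set γ := red0 p C (carry v h prev N) with hγ
  set x := red0 p C (v h) ^ p ^ N with hxdef
  set R := ∑ j ∈ range N, ((prev j).1 : C) * red0 p C (v (N + h - j)) ^ p ^ j with hR
  set Q := p ^ h with hQ
  have hQ2 : 2 ≤ Q := (Fact.out : p.Prime).two_le.trans (Nat.le_self_pow (by omega) p)
  have hγ1 : ‖γ‖ ≤ 1 := norm_red0_le p C _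
  have hx1 : ‖x‖ ≤ 1 := by
    rw [hxdef, norm_pow]; exact pow_le_one₀ (norm_nonneg _) (norm_red0_le p C _)
  have hR1 : ‖R‖ ≤ 1 := by
    refine IsUltrametricDist.norm_sum_le_of_forall_le_of_nonneg zero_le_one fun j _ => ?_
    rw [norm_mul, norm_pow]
    exact mul_le_one₀ (prev j).1.2 (pow_nonneg (norm_nonneg _) _)
      (pow_le_one₀ (norm_nonneg _) (norm_red0_le p C _))
  have hbound : ∀ T : C, (T + γ) ^ Q = x * T + R → ‖T‖ ≤ 1 := by
    intro T hT
    by_contra hlt
    push Not at hlt
    have h1 : ‖T + γ‖ = ‖T‖ := by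
      rw [IsUltrametricDist.norm_add_eq_max_of_norm_ne_norm (by linarith), max_eq_left (by linarith)]
    have h2 : ‖T‖ ^ 2 ≤ ‖(T + γ) ^ Q‖ := by
      rw [norm_pow, h1]; exact pow_le_pow_right₀ hlt.le hQ2
    rw [hT] at h2
    have h3 : ‖x * T + R‖ ≤ ‖T‖ := (IsUltrametricDist.norm_add_le_max _ _).trans (max_le
      (by rw [norm_mul]; exact mul_le_of_le_one_left (norm_nonneg _) hx1) (by linarith))
    nlinarith
  by_cases hz : N = 0 ∧ carry v h prev N = 0
  · obtain ⟨z, hz'⟩ := IsAlgClosed.exists_pow_nat_eq (red0 p C (v h)) (show 0 < Q - 1 by omega)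
    have heq : (z + γ) ^ Q = x * z + R := by
      rw [hγ, hz.2, map_zero, add_zero, hxdef, hR, hz.1, range_zero, sum_empty, add_zero, pow_zero,
        pow_one, ← hz', ← pow_succ, Nat.sub_add_cancel (by omega)]
    refine ⟨⟨z, hbound z heq⟩, heq, fun _ _ hzero => ?_⟩
    apply hx
    rw [← hz', show z = 0 from hzero, zero_pow (by omega)]
  · obtain ⟨w, hw⟩ := IsAlgClosed.exists_root
      (Polynomial.X ^ Q - Polynomial.C x * Polynomial.X + Polynomial.C (x * γ - R)) (by
        intro hd
        have hc : (Polynomial.X ^ Q - Polynomial.C x * Polynomial.X +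
            Polynomial.C (x * γ - R)).coeff Q ≠ 0 := by
          simp [Polynomial.coeff_X, Polynomial.coeff_C, show Q ≠ 0 by omega, show ¬ 1 = Q by omega]
        have h1 := Polynomial.le_natDegree_of_ne_zero hc
        rw [Polynomial.natDegree_eq_zero_iff_degree_le_zero.2 hd.le] at h1
        omega)
    simp only [Polynomial.IsRoot, Polynomial.eval_add, Polynomial.eval_sub, Polynomial.eval_pow,
      Polynomial.eval_X, Polynomial.eval_mul, Polynomial.eval_C] at hw
    have heq : (w - γ + γ) ^ Q = x * (w - γ) + R := by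
      rw [sub_add_cancel]; linear_combination hw
    exact ⟨⟨w - γ, hbound _ heq⟩, heq, fun h0 hc => absurd ⟨h0, hc⟩ hz⟩

variable (hh : 1 ≤ h) (hx : red0 p C (v h) ≠ 0) (hlow : ∀ a < h, red0 p C (v a) = 0)

include hh hx

theorem isDigit_digA (N : ℕ) : IsDigit v h (dig v h) N (digA v h N) := by
  rw [digA, dig_eq hh N]
  exact Classical.epsilon_spec (exists_isDigit hh hx _ N)

include hlow

theorem carryNum_red0 (N : ℕ) : red0 p C (carryNum v h (dig v h) N) = 0 := by
  rw [carryNum, map_sub, map_sum]
  simp only [map_mul, map_pow, red0_teichmuller]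
  by_cases hN : h ≤ N
  · obtain ⟨M, rfl⟩ : ∃ M, N = M + h := ⟨N - h, by omega⟩
    rw [if_pos hN, Nat.add_sub_cancel, red0_frobenius_iterate,
      show (dig v h M).2 = digC v h M from rfl, digC_eq hh M, map_add, red0_teichmuller,
      (isDigit_digA hh hx M).1, sum_range_add,
      ← Finset.sum_subset (s₁ := range 1) (range_subset_range.2 hh) fun l hl hl' => ?_]
    · simp [digA]
      ring
    · simp only [mem_range, not_lt] at hl hl'
      rw [hlow _ (by omega), zero_pow (pow_ne_zero _ (Fact.out : p.Prime).ne_zero), mul_zero]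
  · rw [if_neg hN, map_zero, sum_eq_zero, sub_zero]
    intro j _
    rw [hlow _ (by omega), zero_pow (pow_ne_zero _ (Fact.out : p.Prime).ne_zero), mul_zero]

theorem carry_spec (N : ℕ) :
    (p : WB p C) * carry v h (dig v h) N = carryNum v h (dig v h) N := by
  obtain ⟨z, hz⟩ := (p_dvd_iff p C _).2 (carryNum_red0 hh hx hlow N)
  exact Classical.epsilon_spec (p := fun z => (p : WB p C) * z = carryNum v h (dig v h) N)
    ⟨z, hz.symm⟩

theorem carry_zero : carry v h (dig v h) 0 = 0 := by
  have h0 := carry_spec hh hx hlow 0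
  rw [carryNum, if_neg (by omega), range_zero, sum_empty, sub_zero] at h0
  exact (mul_eq_zero.1 h0).resolve_left (p_ne_zero_WB p C)

theorem digA_zero_pow : (digA v h 0 : C) ^ p ^ h = red0 p C (v h) * (digA v h 0 : C) := by
  have h0 := (isDigit_digA hh hx 0).1
  simpa [carry_zero hh hx hlow] using h0

theorem digA_zero_ne : (digA v h 0 : C) ≠ 0 :=
  (isDigit_digA hh hx 0).2 rfl (carry_zero hh hx hlow)

omit hh hx hlow

/-- The combination of twists of the logarithm coefficients. -/
def combo (S : FE.Setup (WB p C) (KB p C) p) (u : ℕ → WB p C) (N : ℕ) : KB p C :=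
  ∑ j ∈ range (N + 1), S.ι (u j) * (S.φK ^ j) (S.m (N - j))

omit [CharP C p] [IsAlgClosed C] in
theorem combo_add (S : FE.Setup (WB p C) (KB p C) p) (u u' : ℕ → WB p C) (N : ℕ) :
    combo S (fun j => u j + u' j) N = combo S u N + combo S u' N := by
  simp only [combo, map_add, add_mul, sum_add_distrib]

omit [CharP C p] [IsAlgClosed C] in
theorem phiK_pow_add (S : FE.Setup (WB p C) (KB p C) p) (a b : ℕ) (x : KB p C) :
    (S.φK ^ (a + b)) x = (S.φK ^ a) ((S.φK ^ b) x) := by
  rw [pow_add]; rfl

omit [IsAlgClosed C] in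
theorem p_mul_combo (S : FE.Setup (WB p C) (KB p C) p) (u : ℕ → WB p C) (N : ℕ) :
    (p : KB p C) * combo S u N = p * S.ι (u N) + ∑ L ∈ range (N + 1),
      (S.φK ^ L) (S.m (N - L)) * ∑ j ∈ range L, S.ι (u j) * S.ι (S.v (L - j)) ^ p ^ j := by
  rw [combo, sum_range_succ, Nat.sub_self, FE.Setup.m_zero, map_one, mul_one, mul_add, add_comm,
    mul_sum]
  refine congrArg _ ?_
  have hstep : ∀ j ∈ range N, (p : KB p C) * (S.ι (u j) * (S.φK ^ j) (S.m (N - j))) =
      ∑ i ∈ range (N - j), (S.φK ^ (N - i)) (S.m i) *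
        (S.ι (u j) * S.ι (S.v (N - j - i)) ^ p ^ j) := by
    intro j hj
    rw [mem_range] at hj
    obtain ⟨r, hr⟩ : ∃ r, N - j = r + 1 := ⟨N - j - 1, by omega⟩
    rw [hr, S.m_succ', map_mul, FE.Setup.map_pinv,
      show ∀ X : KB p C, (p : KB p C) * (S.ι (u j) * (S.pinv * X)) =
        ((p : KB p C) * S.pinv) * (S.ι (u j) * X) from fun X => by ring, S.p_pinv, one_mul, map_sum,
      mul_sum]
    refine sum_congr rfl fun i hi => ?_
    rw [mem_range] at hi
    rw [map_mul, S.iterate_comm, S.iterate_v, map_pow, ← phiK_pow_add,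
      show N - i = j + (r + 1 - i) by omega]
    ring
  rw [sum_congr rfl hstep, sum_congr rfl fun L (_ : L ∈ range (N + 1)) => mul_sum _ _ _,
    sum_sigma', sum_sigma']
  refine sum_nbij' (fun z => ⟨N - z.2, z.1⟩) (fun z => ⟨z.2, N - z.1⟩) ?_ ?_ ?_ ?_ ?_
  · intro z hz
    simp only [mem_sigma, mem_range] at hz ⊢
    omega
  · intro z hz
    simp only [mem_sigma, mem_range] at hz ⊢
    omega
  · rintro ⟨j, i⟩ hz
    simp only [mem_sigma, mem_range] at hz
    simp only [Sigma.mk.injEq, heq_eq_eq, true_and]
    omega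
  · rintro ⟨L, j⟩ hz
    simp only [mem_sigma, mem_range] at hz
    simp only [Sigma.mk.injEq, heq_eq_eq, and_true]
    omega
  · rintro ⟨j, i⟩ hz
    simp only [mem_sigma, mem_range] at hz
    simp only
    rw [show N - (N - i) = i by omega, show N - i - j = N - j - i by omega]

/-- The logarithm coefficients of the digit lift. -/
def digLog (h : ℕ) (a : ℕ → unitBall C) (N : ℕ) : KB p C :=
  ∑ i ∈ range (N + 1),
    (hondaB p C h).m i * (hondaB p C h).ι (WittVector.teichmuller p (a (N - i))) ^ p ^ i

theorem hondaB_iterate_teichmuller (h k : ℕ) (x : unitBall C) :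
    ((hondaB p C h).φK ^ k) ((hondaB p C h).ι (WittVector.teichmuller p x)) =
      (hondaB p C h).ι (WittVector.teichmuller p x) ^ p ^ k := by
  rw [FE.Setup.iterate_comm, ← map_pow]
  refine congrArg _ ?_
  induction k with
  | zero => simp
  | succ k ih =>
    rw [pow_succ' _ k, RingHom.coe_mul, Function.comp_apply, ih, map_pow,
      show (hondaB p C h).φ (WittVector.teichmuller p x) = WittVector.teichmuller p x ^ p from
        frobenius_teichmuller p C x, ← pow_mul, ← pow_succ']

theorem p_mul_hondaB_m (hh : 1 ≤ h) (i : ℕ) :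
    (p : KB p C) * (hondaB p C h).m (i + 1) = if h ≤ i + 1 then
      ((hondaB p C h).φK ^ h) ((hondaB p C h).m (i + 1 - h)) else 0 := by
  rw [FE.Setup.m_succ', ← mul_assoc, FE.Setup.p_pinv, one_mul]
  have hv : ∀ a, (hondaB p C h).ι ((hondaB p C h).v a) = if a = h then 1 else 0 := fun a => by
    show (hondaB p C h).ι (if a = h then 1 else 0) = _
    split_ifs <;> simp
  simp only [hv]
  split_ifs with hle
  · rw [Finset.sum_eq_single (i + 1 - h)]
    · rw [if_pos (by omega), one_mul, show i + 1 - (i + 1 - h) = h by omega]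
    · intro j hj hne
      rw [mem_range] at hj
      rw [if_neg (by omega), zero_mul]
    · intro hne
      exact absurd (mem_range.2 (by omega)) hne
  · refine sum_eq_zero fun j _ => ?_
    rw [if_neg (by omega), zero_mul]

theorem p_mul_digLog (hh : 1 ≤ h) (a : ℕ → unitBall C) (N : ℕ) :
    (p : KB p C) * digLog h a N =
      p * (hondaB p C h).ι (WittVector.teichmuller p (a N)) +
        if h ≤ N then ((hondaB p C h).φK ^ h) (digLog h a (N - h)) else 0 := by
  rw [digLog, sum_range_succ', FE.Setup.m_zero, pow_zero, pow_one, one_mul, Nat.sub_zero, mul_add,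
    add_comm, mul_sum]
  refine congrArg _ ?_
  simp only [← mul_assoc, p_mul_hondaB_m hh]
  split_ifs with hN
  · obtain ⟨d, rfl⟩ : ∃ d, N = (h - 1) + (d + 1) := ⟨N - h, by omega⟩
    rw [sum_range_add, sum_eq_zero (s := range (h - 1)) fun i hi => ?_, zero_add, digLog, map_sum,
      show h - 1 + (d + 1) - h + 1 = d + 1 by omega]
    · refine sum_congr rfl fun l hl => ?_
      rw [if_pos (by omega), map_mul, map_pow, hondaB_iterate_teichmuller, ← pow_mul, ← pow_add,
        show h - 1 + l + 1 - h = l by omega, show h + l = h - 1 + l + 1 by omega,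
        show h - 1 + (d + 1) - h - l = h - 1 + (d + 1) - (h - 1 + l + 1) by omega]
    · rw [mem_range] at hi
      rw [if_neg (by omega), zero_mul]
  · refine sum_eq_zero fun i hi => ?_
    rw [mem_range] at hi
    rw [if_neg (by omega), zero_mul]

include hh hx hlow

/-- The logarithm of the digit lift is the combination with the elements c. -/
theorem digLog_eq (hv : ∀ a, WittVector.frobenius (v a) = v a ^ p) (N : ℕ) :
    digLog h (digA v h) N = combo (wbSetup p C v hv) (digC v h) N := by
  induction N using Nat.strong_induction_on with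
  | _ N ih =>
    set S := wbSetup p C v hv with hS
    have hunit : IsUnit (p : KB p C) := isUnit_iff_exists_inv.2 ⟨_, S.p_pinv⟩
    refine hunit.mul_left_cancel ?_
    rw [p_mul_digLog hh]
    have hadd : combo S (digC v h) N = combo S (fun j => WittVector.teichmuller p (digA v h j)) N +
        combo S (fun j => carry v h (dig v h) j) N := by
      rw [← combo_add]
      exact congrArg (fun u => combo S u N) (funext fun j => digC_eq hh j)
    have hcarry : (p : KB p C) * combo S (fun j => carry v h (dig v h) j) N =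
        ∑ L ∈ range (N + 1), (S.φK ^ L) (S.m (N - L)) * S.ι (carryNum v h (dig v h) L) := by
      rw [combo, mul_sum]
      refine sum_congr rfl fun L _ => ?_
      rw [← carry_spec hh hx hlow L, map_mul, map_natCast]
      ring
    rw [hadd, mul_add, p_mul_combo, hcarry, add_assoc, ← sum_add_distrib]
    refine congrArg (HAdd.hAdd _) ?_
    have hL : ∀ L, (S.φK ^ L) (S.m (N - L)) *
        (∑ j ∈ range L, S.ι (WittVector.teichmuller p (digA v h j)) * S.ι (S.v (L - j)) ^ p ^ j) +
        (S.φK ^ L) (S.m (N - L)) * S.ι (carryNum v h (dig v h) L) =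
        if h ≤ L then (S.φK ^ L) (S.m (N - L)) * S.ι ((S.φ ^ h) (digC v h (L - h))) else 0 := by
      intro L
      rw [← mul_add, carryNum, map_sub, map_sum]
      simp only [map_mul, map_pow]
      rw [show S.v = v from rfl, show (S.φ : WB p C →+* WB p C) = WittVector.frobenius from rfl]
      simp only [digA, digC, add_sub_cancel]
      split_ifs <;> simp
    rw [sum_congr rfl fun L _ => hL L]
    split_ifs with hN
    · rw [show (hondaB p C h).φK = S.φK from rfl, ih (N - h) (by omega)]
      obtain ⟨d, rfl⟩ : ∃ d, N = h + d := ⟨N - h, by omega⟩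
      rw [show h + d + 1 = h + (d + 1) by omega, sum_range_add,
        sum_eq_zero (s := range h) fun L hL' => if_neg (by simpa using hL'), zero_add, combo,
        map_sum, Nat.add_sub_cancel_left]
      refine sum_congr rfl fun l hl => ?_
      rw [if_pos (by omega), map_mul, S.iterate_comm, ← phiK_pow_add, Nat.add_sub_cancel_left,
        Nat.add_sub_add_left]
      ring
    · refine (sum_eq_zero fun L hL' => if_neg ?_).symm
      rw [mem_range] at hL'
      omega

end Vale.Agent.P217.Hom
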