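import Vale.Agent.P217.A.FE
import Vale.Agent.P217.A.Group
import Vale.Agent.P217.Hom.Digits

/-!
# P217, block HOM: the hom to the Honda law at a point
-/

noncomputable section

namespace Vale.Agent.P217.Hom

open MvPowerSeries Finset

section generic

variable {p : ℕ} [Fact p.Prime] {B K : Type} [CommRing B] [CommRing K] (S : FE.Setup B K p)

omit [Fact p.Prime] in
theorem logPS_eq : S.logPS = FE.pser p S.m := rfl

omit [Fact p.Prime] in
theorem constantCoeff_pser (c : ℕ → K) : PowerSeries.constantCoeff (FE.pser p c) = 0 := by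
  rw [← PowerSeries.coeff_zero_eq_constantCoeff_apply]
  simp [FE.pser]

/-- Equal logarithms up to degree d give equal series up to degree d. -/
theorem agree_of_LE {σ : Type} {u u' : MvPowerSeries σ K} (h0 : constantCoeff u = 0)
    (h0' : constantCoeff u' = 0) {d : ℕ} (he : FE.AgreeUpTo d (S.LE u) (S.LE u')) :
    FE.AgreeUpTo d u u' := by
  intro α hα
  induction hN : Finsupp.degree α using Nat.strong_induction_on generalizing α with
  | _ N ih =>
    subst hN
    have := S.LE_congr_top h0 h0' (α := α) fun β hβ => ih _ hβ β (by omega) rfl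
    have h2 := he α hα
    rwa [h2, sub_self, eq_comm, sub_eq_zero] at this

omit [Fact p.Prime] in
/-- Series equal up to degree d have equal logarithms up to degree d. -/
theorem LE_agree {σ : Type} {u u' : MvPowerSeries σ K} {d : ℕ} (he : FE.AgreeUpTo d u u') :
    FE.AgreeUpTo d (S.LE u) (S.LE u') := fun α hα => by
  rw [FE.Setup.coeff_LE, FE.Setup.coeff_LE]
  exact sum_congr rfl fun k _ => by rw [(he.pow _) α hα]

omit [Fact p.Prime] in
theorem LE_zero {σ : Type} [Fact p.Prime] : S.LE (0 : MvPowerSeries σ K) = 0 := by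
  ext α
  rw [FE.Setup.coeff_LE, map_zero]
  refine sum_eq_zero fun k _ => ?_
  rw [zero_pow (pow_ne_zero _ (Fact.out : p.Prime).ne_zero), map_zero, mul_zero]

/-- The logarithm of a sum in the law. -/
theorem LE_seriesSum {G : FormalGroup B} (hG : IsLawOf S G.toPowerSeries) :
    ∀ {L : List (PowerSeries B)}, (∀ f ∈ L, PowerSeries.constantCoeff f = 0) →
      S.LE (MvPowerSeries.map S.ι (seriesSum G L)) =
        (L.map fun f => S.LE (MvPowerSeries.map S.ι f)).sum
  | [], _ => by simp [seriesSum, LE_zero S]
  | f :: L, h => by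
    have hf : constantCoeff (σ := Unit) f = 0 := h f (List.mem_cons_self ..)
    have hLc : constantCoeff (σ := Unit) (seriesSum G L) = 0 :=
      EF.constantCoeff_seriesSum fun g hg => h g (List.mem_cons_of_mem _ hg)
    have hv : MvPowerSeries.HasSubst (![f, seriesSum G L] : Fin 2 → MvPowerSeries Unit B) :=
      MvPowerSeries.hasSubst_of_constantCoeff_zero fun s => by
        fin_cases s
        · exact hf
        · exact hLc
    have hF0 : constantCoeff (MvPowerSeries.map S.ι G.toPowerSeries) = 0 :=
      FE.Setup.constantCoeff_map' _ G.zero_constantCoeff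
    have e : (fun i => MvPowerSeries.map S.ι
        ((![f, seriesSum G L] : Fin 2 → MvPowerSeries Unit B) i)) =
        ![MvPowerSeries.map S.ι f, MvPowerSeries.map S.ι (seriesSum G L)] := by
      funext i; fin_cases i <;> rfl
    have hlaw := hG.2
    rw [S.LE_eq_subst _ hF0, S.LE_eq_subst _ (constantCoeff_X 0),
      S.LE_eq_subst _ (constantCoeff_X 1)] at hlaw
    rw [seriesSum, List.map_cons, List.sum_cons,
      ← LE_seriesSum hG fun g hg => h g (List.mem_cons_of_mem _ hg), MvPowerSeries.map_subst hv, e]
    have hc : constantCoeff (MvPowerSeries.subst ![MvPowerSeries.map S.ι f,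
        MvPowerSeries.map S.ι (seriesSum G L)] (MvPowerSeries.map S.ι G.toPowerSeries)) = 0 :=
      MvPowerSeries.constantCoeff_subst_eq_zero
        (MvPowerSeries.hasSubst_of_constantCoeff_zero fun s => by
          fin_cases s <;> simp [hf, hLc])
        (fun s => by fin_cases s <;> simp [hf, hLc]) hF0
    rw [S.LE_eq_subst _ hc, S.LE_eq_subst _ (FE.Setup.constantCoeff_map' _ hf),
      S.LE_eq_subst _ (FE.Setup.constantCoeff_map' _ hLc)]
    exact FE.log_add hF0 hlaw (FE.Setup.constantCoeff_map' _ hf)
      (FE.Setup.constantCoeff_map' _ hLc)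

omit [Fact p.Prime] in
theorem constantCoeff_digitTerm {R : Type} [CommRing R] (t : ℕ → R) (hp : p ≠ 0) (j : ℕ) :
    PowerSeries.constantCoeff (PowerSeries.C (t j) * PowerSeries.X ^ p ^ j) = 0 := by
  rw [map_mul, map_pow, PowerSeries.constantCoeff_X, zero_pow (pow_ne_zero j hp), mul_zero]

omit [Fact p.Prime] in
theorem constantCoeff_digitTerms {R : Type} [CommRing R] (t : ℕ → R) (hp : p ≠ 0) (N : ℕ) :
    ∀ f ∈ (List.range N).map (fun j => PowerSeries.C (t j) * PowerSeries.X ^ p ^ j),
      PowerSeries.constantCoeff f = 0 := fun f hf => by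
  obtain ⟨j, -, rfl⟩ := List.mem_map.1 hf
  exact constantCoeff_digitTerm t hp j

omit [Fact p.Prime] in
theorem constantCoeff_digitSeries {R : Type} [CommRing R] (G : FormalGroup R) (t : ℕ → R)
    (hp : p ≠ 0) : PowerSeries.constantCoeff (digitSeries p G t) = 0 := by
  rw [← PowerSeries.coeff_zero_eq_constantCoeff_apply, digitSeries, PowerSeries.coeff_mk,
    PowerSeries.coeff_zero_eq_constantCoeff_apply]
  exact EF.constantCoeff_seriesSum (constantCoeff_digitTerms t hp _)

omit [Fact p.Prime] in
theorem map_seriesSum {R R' : Type} [CommRing R] [CommRing R'] (g : R →+* R') (G : FormalGroup R) :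
    ∀ {L : List (PowerSeries R)}, (∀ f ∈ L, PowerSeries.constantCoeff f = 0) →
      PowerSeries.map g (seriesSum G L) = seriesSum (G.map g) (L.map (PowerSeries.map g))
  | [], _ => map_zero _
  | f :: L, h => by
    have hf : constantCoeff (σ := Unit) f = 0 := h f (List.mem_cons_self ..)
    have hLc : constantCoeff (σ := Unit) (seriesSum G L) = 0 :=
      EF.constantCoeff_seriesSum fun g hg => h g (List.mem_cons_of_mem _ hg)
    have hv : MvPowerSeries.HasSubst (![f, seriesSum G L] : Fin 2 → MvPowerSeries Unit R) :=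
      MvPowerSeries.hasSubst_of_constantCoeff_zero fun s => by
        fin_cases s
        · exact hf
        · exact hLc
    show MvPowerSeries.map g (MvPowerSeries.subst ![f, seriesSum G L] G.toPowerSeries) =
      MvPowerSeries.subst ![PowerSeries.map g f, seriesSum (G.map g) (L.map (PowerSeries.map g))]
        (G.map g).toPowerSeries
    rw [MvPowerSeries.map_subst hv, ← map_seriesSum g G fun g' hg => h g' (List.mem_cons_of_mem _ hg)]
    refine congrArg₂ _ (funext fun i => ?_) rfl
    fin_cases i <;> rfl

theorem map_digitSeries {R R' : Type} [CommRing R] [CommRing R'] (g : R →+* R') (G : FormalGroup R)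
    (t : ℕ → R) :
    PowerSeries.map g (digitSeries p G t) = digitSeries p (G.map g) fun j => g (t j) := by
  have hp : p ≠ 0 := (Fact.out : p.Prime).ne_zero
  ext N
  rw [PowerSeries.coeff_map, digitSeries, digitSeries, PowerSeries.coeff_mk, PowerSeries.coeff_mk,
    ← PowerSeries.coeff_map, map_seriesSum g G (constantCoeff_digitTerms t hp _), List.map_map]
  congr 2
  exact List.map_congr_left fun j _ => by simp

/-- The logarithm of a digit series. -/
theorem LE_digitSeries {G : FormalGroup B} (hG : IsLawOf S G.toPowerSeries) (t : ℕ → B) :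
    S.LE (MvPowerSeries.map S.ι (digitSeries p G t)) =
      FE.pser p fun N => ∑ i ∈ range (N + 1), S.m i * S.ι (t (N - i)) ^ p ^ i := by
  have hp := (Fact.out : p.Prime)
  have hp0 := hp.ne_zero
  set D : ℕ → PowerSeries B := fun M =>
    seriesSum G ((List.range M).map fun j => PowerSeries.C (t j) * PowerSeries.X ^ p ^ j)
  have hD0 : ∀ M, constantCoeff (σ := Unit) (MvPowerSeries.map S.ι (D M)) = 0 := fun M =>
    FE.Setup.constantCoeff_map' _ (EF.constantCoeff_seriesSum (constantCoeff_digitTerms t hp0 M))
  have key : ∀ (M d : ℕ), d < M → PowerSeries.coeff d (S.LE (MvPowerSeries.map S.ι (D M))) =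
      PowerSeries.coeff d (FE.pser p fun N => ∑ i ∈ range (N + 1),
        S.m i * S.ι (t (N - i)) ^ p ^ i) := by
    intro M d hd
    rw [LE_seriesSum S hG (constantCoeff_digitTerms t hp0 M), List.map_map,
      ← List.sum_toFinset _ List.nodup_range, List.toFinset_range, map_sum]
    have hterm : ∀ j, PowerSeries.coeff d
        (S.LE (MvPowerSeries.map S.ι (PowerSeries.C (t j) * PowerSeries.X ^ p ^ j))) =
        ∑ k ∈ range (d + 1), if d = p ^ (j + k) then S.m k * S.ι (t j) ^ p ^ k else 0 := by
      intro j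
      rw [PowerSeries.coeff, FE.Setup.coeff_LE, Finsupp.degree_single]
      refine sum_congr rfl fun k _ => ?_
      show _ * PowerSeries.coeff d ((PowerSeries.map S.ι
        (PowerSeries.C (t j) * PowerSeries.X ^ p ^ j)) ^ p ^ k) = _
      rw [map_mul (PowerSeries.map S.ι), map_pow (PowerSeries.map S.ι), PowerSeries.map_C,
        PowerSeries.map_X, mul_pow, ← pow_mul, ← pow_add, ← map_pow PowerSeries.C,
        PowerSeries.coeff_C_mul, PowerSeries.coeff_X_pow]
      split_ifs <;> simp
    simp only [Function.comp_apply]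
    rw [sum_congr rfl fun j _ => hterm j]
    simp only [FE.pser, PowerSeries.coeff_mk]
    split_ifs with hpow
    · set N := Nat.log p d
      have hNd : N < d + 1 := by
        have := Nat.lt_pow_self (n := N) hp.one_lt
        omega
      have hiff : ∀ e, d = p ^ e ↔ e = N := fun e =>
        ⟨fun he => Nat.pow_right_injective hp.two_le (he.symm.trans hpow), fun he => he ▸ hpow⟩
      simp only [hiff]
      rw [← sum_range_reflect (fun i => S.m i * S.ι (t (N - i)) ^ p ^ i) (N + 1),
        ← sum_subset (s₁ := range (N + 1)) (range_subset_range.2 (by omega : N + 1 ≤ M)) ?_]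
      · refine sum_congr rfl fun j hj => ?_
        rw [mem_range] at hj
        rw [Finset.sum_eq_single (N - j), if_pos (by omega)]
        · rw [show N + 1 - 1 - j = N - j by omega, show N - (N - j) = j by omega]
        · exact fun k _ hk => if_neg (by omega)
        · exact fun hk => absurd (mem_range.2 (by omega)) hk
      · intro j _ hj
        rw [mem_range] at hj
        exact sum_eq_zero fun k _ => if_neg (by omega)
    · refine sum_eq_zero fun j _ => sum_eq_zero fun k _ => if_neg fun he => hpow ?_
      rw [he, Nat.log_pow hp.one_lt]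
  ext d
  have hag : FE.AgreeUpTo d (MvPowerSeries.map S.ι (digitSeries p G t))
      (MvPowerSeries.map S.ι (D (d + 1))) := by
    intro α hα
    obtain ⟨e, rfl⟩ : ∃ e, α = Finsupp.single () e := ⟨α (), by ext; simp⟩
    rw [Finsupp.degree_single] at hα
    have h1 : MvPowerSeries.coeff (Finsupp.single () e)
        (MvPowerSeries.map S.ι (digitSeries p G t)) =
        MvPowerSeries.coeff (Finsupp.single () e) (MvPowerSeries.map S.ι (D (e + 1))) := by
      show PowerSeries.coeff e (PowerSeries.map S.ι (digitSeries p G t)) =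
        PowerSeries.coeff e (PowerSeries.map S.ι (D (e + 1)))
      rw [PowerSeries.coeff_map, PowerSeries.coeff_map, digitSeries, PowerSeries.coeff_mk]
    refine h1.trans (agree_of_LE S (hD0 _) (hD0 _) (d := e) ?_ _ (Finsupp.degree_single _ _).le)
    intro β hβ
    obtain ⟨b, rfl⟩ : ∃ b, β = Finsupp.single () b := ⟨β (), by ext; simp⟩
    rw [Finsupp.degree_single] at hβ
    exact (key (e + 1) b (by omega)).trans (key (d + 1) b (by omega)).symm
  exact (LE_agree S hag (Finsupp.single () d) (Finsupp.degree_single _ _).le).trans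
    (key (d + 1) d (Nat.lt_succ_self d))

end generic

variable {p : ℕ} [Fact p.Prime]
variable {C : Type} [NontriviallyNormedField C] [IsUltrametricDist C] [CharP C p] [IsAlgClosed C]

omit [CharP C p] [IsAlgClosed C] in
theorem isPInt_mul (S : FE.Setup (WB p C) (KB p C) p) (w : WB p C) {x : KB p C}
    (hx : S.IsPInt x) : S.IsPInt (S.ι w * x) := by
  obtain ⟨b, rfl⟩ := hx
  exact ⟨w * b, by rw [← map_mul]; ring_nf⟩

omit [CharP C p] [IsAlgClosed C] in
/-- The combination of a logarithm after a series is congruent to twists of its logarithm. -/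
theorem combo_congr (S : FE.Setup (WB p C) (KB p C) p) (u : ℕ → WB p C) {σ : Type}
    {g : MvPowerSeries σ (WB p C)} (hg : constantCoeff g = 0) (α : σ →₀ ℕ) :
    S.IsPInt (coeff α (PowerSeries.subst (MvPowerSeries.map S.ι g) (FE.pser p (combo S u))) -
      ∑ j ∈ range (α.degree + 1), S.ι (u j) * coeff α (FE.Setup.tw (S.φK ^ j) (p ^ j)
        (pow_ne_zero j (Fact.out : p.Prime).ne_zero) (S.LE (MvPowerSeries.map S.ι g)))) := by
  have hp := (Fact.out : p.Prime)
  have hg' : constantCoeff (MvPowerSeries.map S.ι g) = 0 := FE.Setup.constantCoeff_map' _ hg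
  set D := α.degree
  have hleft : coeff α (PowerSeries.subst (MvPowerSeries.map S.ι g) (FE.pser p (combo S u))) =
      ∑ j ∈ range (D + 1),
        S.ι (u j) * coeff α ((S.twist j).LE (MvPowerSeries.map S.ι (g ^ p ^ j))) := by
    rw [FE.coeff_subst_pser hp.one_lt _ hg' α le_rfl]
    simp only [combo, sum_mul, FE.Setup.coeff_LE, mul_sum, FE.Setup.twist_m, map_pow, ← pow_mul,
      ← pow_add]
    rw [sum_sigma', sum_sigma']
    refine Finset.sum_bij_ne_zero (fun z _ _ => ⟨z.2, z.1 - z.2⟩) ?_ ?_ ?_ ?_
    · rintro ⟨N, j⟩ hz _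
      simp only [mem_sigma, mem_range] at hz ⊢
      omega
    · rintro ⟨N, j⟩ hz _ ⟨N', j'⟩ hz' _ he
      simp only [mem_sigma, mem_range] at hz hz'
      simp only [Sigma.mk.injEq, heq_eq_eq] at he
      obtain ⟨rfl, he⟩ := he
      simp only [Sigma.mk.injEq, heq_eq_eq, and_true]
      omega
    · rintro ⟨j, k⟩ hz hne
      simp only [mem_sigma, mem_range] at hz
      have hle : j + k ≤ D := by
        by_contra hc
        refine hne ?_
        have h1 := Nat.lt_pow_self (n := j + k) hp.one_lt
        simp only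
        rw [FE.Setup.coeff_pow_eq_zero hg' (by omega : α.degree < p ^ (j + k)), mul_zero, mul_zero]
      refine ⟨⟨j + k, j⟩, ?_, ?_, ?_⟩
      · simp only [mem_sigma, mem_range]; omega
      · simp only at hne ⊢
        rw [Nat.add_sub_cancel_left, mul_assoc]
        exact hne
      · simp only [Sigma.mk.injEq, heq_eq_eq, true_and]; omega
    · rintro ⟨N, j⟩ hz _
      simp only [mem_sigma, mem_range] at hz
      simp only
      rw [show j + (N - j) = N by omega, mul_assoc]
  rw [hleft, ← sum_sub_distrib]
  refine S.isPInt_sum _ _ fun j _ => ?_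
  rw [← mul_sub, ← FE.Setup.LE_tw S j _ _ hg', ← FE.Setup.map_tw S]
  exact isPInt_mul S _ ((S.twist j).LE_congr_mod (S.pow_congr_tw j g) α)

theorem homPin : EF.HomPin := by
  intro p n h _ C _ _ _ _ _ Gh hh hhn hGh F hF P
  classical
  have hp := (Fact.out : p.Prime)
  have hn : 1 ≤ n := hh.trans hhn
  set v : ℕ → WB p C := fun a => WittVector.teichmuller p (chiO hn P (vv p n a)) with hvdef
  have hv : ∀ a, WittVector.frobenius (v a) = v a ^ p := fun a => frobenius_teichmuller p C _
  have hred : ∀ a, red0 p C (v a) = P.chi (vv p n a) := fun a => by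
    rw [hvdef, red0_teichmuller, coe_chiO]
  have hlow : ∀ a < h, red0 p C (v a) = 0 := fun a ha => by rw [hred, P.chi_zero a ha]
  have hx : red0 p C (v h) ≠ 0 := by rw [hred]; exact P.chi_h
  set a : ℕ → C := fun j => (digA v h j : C) with hadef
  set it : PowerSeries (WB p C) :=
    digitSeries p (hondaLaw Gh) fun j => WittVector.teichmuller p (digA v h j) with hit
  have hi : PowerSeries.map (red0 p C) it = digitSeries p (hondaIn Gh C) a := by
    rw [hit, map_digitSeries]
    congr 1
    exact FormalGroup.ext (red0_hondaLaw Gh)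
  have hit0 : PowerSeries.constantCoeff it = 0 := constantCoeff_digitSeries _ _ hp.ne_zero
  set SH := hondaB p C h
  have hlog : SH.LE (MvPowerSeries.map SH.ι it) =
      FE.pser p (combo (pointSetup hn P) (digC v h)) := by
    rw [hit, LE_digitSeries SH (hondaLaw_isLawOf hh hGh)]
    exact congrArg (FE.pser p) (funext fun N => digLog_eq hh hx hlow hv N)
  refine ⟨a, fun j => (digA v h j).2, digA_zero_ne hh hx hlow, ?_, fun k => ?_, ?_, ?_⟩
  · rw [← hred]; exact digA_zero_pow hh hx hlow
  · rw [← hi, PowerSeries.coeff_map]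
    exact norm_red0_le p C _
  · rw [← hi, PowerSeries.coeff_map, show PowerSeries.coeff 1 it =
        WittVector.teichmuller p (digA v h 0) from SH.inj ?_, red0_teichmuller]
    have htop := SH.LE_congr_top (σ := Unit) (h := MvPowerSeries.map SH.ι it) (h' := 0)
      (FE.Setup.constantCoeff_map' _ hit0) (map_zero _) (α := Finsupp.single () 1) fun β hβ => by
        rw [Finsupp.degree_single] at hβ
        rw [(Finsupp.degree_eq_zero_iff β).1 (by omega), MvPowerSeries.coeff_map,
          coeff_zero_eq_constantCoeff_apply]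
        simp [show constantCoeff (σ := Unit) it = 0 from hit0]
    simp only [LE_zero SH, map_zero, sub_zero, MvPowerSeries.coeff_map] at htop
    rw [hit, LE_digitSeries SH (hondaLaw_isLawOf hh hGh)] at htop
    refine htop.symm.trans ?_
    show PowerSeries.coeff 1 (FE.pser p _) = _
    simp [FE.pser]
  refine ⟨constantCoeff_digitSeries _ _ hp.ne_zero, ?_⟩
  obtain ⟨G, hG, hGred⟩ := exists_pointLaw hn P hF
  set S := pointSetup hn P
  have hitx : ∀ i : Fin 2, constantCoeff
      (PowerSeries.subst (MvPowerSeries.X i : MvPowerSeries (Fin 2) (WB p C)) it) = 0 := fun i =>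
    PowerSeries.constantCoeff_subst_eq_zero (constantCoeff_X i) _ hit0
  have hv2 : MvPowerSeries.HasSubst
      ![PowerSeries.subst (MvPowerSeries.X 0 : MvPowerSeries (Fin 2) (WB p C)) it,
        PowerSeries.subst (MvPowerSeries.X 1 : MvPowerSeries (Fin 2) (WB p C)) it] :=
    MvPowerSeries.hasSubst_of_constantCoeff_zero fun s => by fin_cases s <;> exact hitx _
  set lhs : MvPowerSeries (Fin 2) (WB p C) := PowerSeries.subst G it with hlhs
  set rhs : MvPowerSeries (Fin 2) (WB p C) := MvPowerSeries.subst
    ![PowerSeries.subst (MvPowerSeries.X 0 : MvPowerSeries (Fin 2) (WB p C)) it,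
      PowerSeries.subst (MvPowerSeries.X 1 : MvPowerSeries (Fin 2) (WB p C)) it]
    (hondaLaw (C := C) Gh).toPowerSeries with hrhs
  have hl0 : constantCoeff lhs = 0 := PowerSeries.constantCoeff_subst_eq_zero hG.1 _ hit0
  have hr0 : constantCoeff rhs = 0 := MvPowerSeries.constantCoeff_subst_eq_zero hv2
    (fun s => by fin_cases s <;> exact hitx _) (hondaLaw (C := C) Gh).zero_constantCoeff
  -- the logarithm of a series substituted into the digit lift
  have hcomp : ∀ g : MvPowerSeries (Fin 2) (WB p C), constantCoeff g = 0 →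
      SH.LE (MvPowerSeries.map SH.ι (PowerSeries.subst g it)) =
        PowerSeries.subst (MvPowerSeries.map S.ι g) (FE.pser p (combo S (digC v h))) := by
    intro g hg
    have hs := PowerSeries.HasSubst.of_constantCoeff_zero hg
    rw [PowerSeries.map_subst hs,
      SH.LE_eq_subst _ (PowerSeries.constantCoeff_subst_eq_zero
        (FE.Setup.constantCoeff_map' _ hg) _ (by
          rw [← PowerSeries.coeff_zero_eq_constantCoeff_apply, PowerSeries.coeff_map,
            PowerSeries.coeff_zero_eq_constantCoeff_apply, hit0, map_zero]))]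
    rw [← hlog, SH.LE_eq_subst _ (FE.Setup.constantCoeff_map' _ hit0)]
    exact (PowerSeries.subst_comp_subst_apply
      (PowerSeries.HasSubst.of_constantCoeff_zero (FE.Setup.constantCoeff_map' _ hit0))
      (PowerSeries.HasSubst.of_constantCoeff_zero (FE.Setup.constantCoeff_map' _ hg)) _).symm
  have hrlog : SH.LE (MvPowerSeries.map SH.ι rhs) =
      SH.LE (MvPowerSeries.map SH.ι (PowerSeries.subst (MvPowerSeries.X 0) it)) +
      SH.LE (MvPowerSeries.map SH.ι (PowerSeries.subst (MvPowerSeries.X 1) it)) := by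
    have hlaw := hondaLaw_isLawOf (C := C) hh hGh
    have hF0 := FE.Setup.constantCoeff_map' SH.ι (hondaLaw (C := C) Gh).zero_constantCoeff
    have hlaw2 := hlaw.2
    rw [SH.LE_eq_subst _ hF0, SH.LE_eq_subst _ (constantCoeff_X 0),
      SH.LE_eq_subst _ (constantCoeff_X 1)] at hlaw2
    have hu := fun i => FE.Setup.constantCoeff_map' SH.ι (hitx i)
    rw [SH.LE_eq_subst _ (FE.Setup.constantCoeff_map' _ hr0), SH.LE_eq_subst _ (hu 0),
      SH.LE_eq_subst _ (hu 1), hrhs, MvPowerSeries.map_subst hv2,
      ← FE.log_add hF0 hlaw2 (hu 0) (hu 1)]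
    refine congrArg (fun w => PowerSeries.subst (MvPowerSeries.subst w _) _) (funext fun i => ?_)
    fin_cases i <;> rfl
  have hcong : ∀ α, SH.IsPInt (coeff α (SH.LE (MvPowerSeries.map SH.ι lhs)) -
      coeff α (SH.LE (MvPowerSeries.map SH.ι rhs))) := by
    intro α
    rw [hrlog, map_add, hcomp _ hG.1, hcomp _ (constantCoeff_X 0), hcomp _ (constantCoeff_X 1)]
    obtain ⟨b, hb⟩ := combo_congr S (digC v h) hG.1 α
    obtain ⟨b0, hb0⟩ := combo_congr S (digC v h) (constantCoeff_X (0 : Fin 2)) α
    obtain ⟨b1, hb1⟩ := combo_congr S (digC v h) (constantCoeff_X (1 : Fin 2)) α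
    refine ⟨b - b0 - b1, ?_⟩
    have hsum : ∑ j ∈ range (α.degree + 1), S.ι (digC v h j) * coeff α (FE.Setup.tw (S.φK ^ j)
        (p ^ j) (pow_ne_zero j hp.ne_zero) (S.LE (MvPowerSeries.map S.ι G))) =
        ∑ j ∈ range (α.degree + 1), S.ι (digC v h j) * coeff α (FE.Setup.tw (S.φK ^ j)
          (p ^ j) (pow_ne_zero j hp.ne_zero) (S.LE (MvPowerSeries.map S.ι (MvPowerSeries.X 0)))) +
        ∑ j ∈ range (α.degree + 1), S.ι (digC v h j) * coeff α (FE.Setup.tw (S.φK ^ j)
          (p ^ j) (pow_ne_zero j hp.ne_zero) (S.LE (MvPowerSeries.map S.ι (MvPowerSeries.X 1)))) := by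
      rw [hG.2, MvPowerSeries.map_X, MvPowerSeries.map_X, ← sum_add_distrib]
      simp only [FE.Setup.tw, map_add, mul_add]
    rw [show SH.ι = S.ι from rfl, mul_sub, mul_sub, map_sub S.ι, map_sub S.ι, ← hb, ← hb0, ← hb1]
    linear_combination (norm := skip) hsum
    ring_nf
  have heq : MvPowerSeries.map (red0 p C) lhs = MvPowerSeries.map (red0 p C) rhs := by
    ext α
    rw [MvPowerSeries.coeff_map, MvPowerSeries.coeff_map]
    exact red0_eq_of_dvd p C (SH.mod_of_LE hl0 hr0 hcong α)
  rw [hlhs, hrhs, PowerSeries.map_subst (PowerSeries.HasSubst.of_constantCoeff_zero hG.1),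
    MvPowerSeries.map_subst hv2, hi, hGred, red0_hondaLaw] at heq
  refine heq.trans (congrArg (fun w => MvPowerSeries.subst w _) (funext fun i => ?_))
  fin_cases i <;>
    (show MvPowerSeries.map _ (PowerSeries.subst _ _) = _
     rw [PowerSeries.map_subst (PowerSeries.HasSubst.of_constantCoeff_zero (constantCoeff_X _)),
       hi, MvPowerSeries.map_X]
     rfl)

end Vale.Agent.P217.Hom
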