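import Vale.Agent.P217.A.Coeff
import Vale.Agent.P217.EF.Univ
import Vale.Agent.P217.EF.Point
import Vale.Agent.P217.Hom.HomPin
import Vale.Agent.P217.Hom.DigitUnique

/-!
# P217, block HOM: the digits of a hom modulo 1 / p

Modulo the ball of radius 1 / p the law at a point is the Honda law of height n, so the hom
commutes with the multiplications by p, which are the powers p ^ n and p ^ h of the variable.
-/

noncomputable section

namespace Vale.Agent.P217.Hom

open PowerSeries

section general

variable {p : ℕ} [Fact p.Prime] {R R' : Type} [CommRing R] [CommRing R']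

theorem map_hondaIn [CharP R p] [CharP R' p] (G : FormalGroup ℤ_[p]) (g : R →+* R') :
    (hondaIn G R).map g = hondaIn G R' := by
  refine FormalGroup.ext ?_
  show MvPowerSeries.map g (MvPowerSeries.map _ G.toPowerSeries) =
    MvPowerSeries.map _ G.toPowerSeries
  rw [map_map', EF.hom_padicInt_eq (p := p) (g.comp _)]

theorem fg_map_map {R'' : Type} [CommRing R''] (G : FormalGroup R) (g : R →+* R')
    (g' : R' →+* R'') : (G.map g).map g' = G.map (g'.comp g) :=
  FormalGroup.ext (map_map' g g' G.toPowerSeries)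

omit [Fact p.Prime] in
theorem map_hom_sides (g : R →+* R') (G G' : FormalGroup R) {i : PowerSeries R}
    (hi : constantCoeff i = 0) :
    MvPowerSeries.map g (PowerSeries.subst G.toPowerSeries i) =
        PowerSeries.subst (G.map g).toPowerSeries (PowerSeries.map g i) ∧
      MvPowerSeries.map g (MvPowerSeries.subst
          ![PowerSeries.subst (MvPowerSeries.X 0 : MvPowerSeries (Fin 2) R) i,
            PowerSeries.subst (MvPowerSeries.X 1 : MvPowerSeries (Fin 2) R) i] G'.toPowerSeries) =
        MvPowerSeries.subst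
          ![PowerSeries.subst (MvPowerSeries.X 0 : MvPowerSeries (Fin 2) R') (PowerSeries.map g i),
            PowerSeries.subst (MvPowerSeries.X 1 : MvPowerSeries (Fin 2) R') (PowerSeries.map g i)]
          (G'.map g).toPowerSeries := by
  refine ⟨PowerSeries.map_subst (HasSubst.of_constantCoeff_zero G.zero_constantCoeff) _, ?_⟩
  have hX : ∀ k : Fin 2, MvPowerSeries.constantCoeff
      (PowerSeries.subst (MvPowerSeries.X k : MvPowerSeries (Fin 2) R) i) = 0 := fun k =>
    constantCoeff_subst_eq_zero (MvPowerSeries.constantCoeff_X k) _ hi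
  rw [MvPowerSeries.map_subst (MvPowerSeries.hasSubst_of_constantCoeff_zero fun s => by
    fin_cases s <;> exact hX _)]
  refine congrArg (fun w => MvPowerSeries.subst w _) (funext fun k => ?_)
  fin_cases k <;>
    (show MvPowerSeries.map g (PowerSeries.subst _ i) = _
     rw [PowerSeries.map_subst (HasSubst.of_constantCoeff_zero (MvPowerSeries.constantCoeff_X _)),
       MvPowerSeries.map_X]
     rfl)

omit [Fact p.Prime] in
theorem constantCoeff_map_series (g : R →+* R') {i : PowerSeries R} (hi : constantCoeff i = 0) :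
    constantCoeff (PowerSeries.map g i) = 0 := by
  rw [← coeff_zero_eq_constantCoeff_apply, coeff_map, coeff_zero_eq_constantCoeff_apply, hi,
    map_zero]

omit [Fact p.Prime] in
theorem isHom_map {G G' : FormalGroup R} {i : PowerSeries R} (h : EF.IsHom G G' i) (g : R →+* R') :
    EF.IsHom (G.map g) (G'.map g) (PowerSeries.map g i) := by
  obtain ⟨e1, e2⟩ := map_hom_sides g G G' h.1
  exact ⟨constantCoeff_map_series g h.1, by rw [← e1, ← e2, h.2]⟩

omit [Fact p.Prime] in
theorem isHom_of_map {G G' : FormalGroup R} {i : PowerSeries R} {g : R →+* R'}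
    (hg : Function.Injective g) (hi : constantCoeff i = 0)
    (h : EF.IsHom (G.map g) (G'.map g) (PowerSeries.map g i)) : EF.IsHom G G' i := by
  obtain ⟨e1, e2⟩ := map_hom_sides g G G' hi
  refine ⟨hi, MvPowerSeries.ext fun m => hg ?_⟩
  rw [← MvPowerSeries.coeff_map, ← MvPowerSeries.coeff_map, e1, e2, h.2]

/-- Multiplication by p in the Honda law in characteristic p. -/
theorem hondaIn_nsmul_p [CharP R p] {k : ℕ} (hk : 1 ≤ k) {G : FormalGroup ℤ_[p]}
    (hG : IsHondaLift k G) : nsmulSeries (hondaIn G R) p = X ^ p ^ k := by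
  rw [show nsmulSeries (hondaIn G R) p = PowerSeries.map
      ((ZMod.castHom (dvd_refl p) R).comp PadicInt.toZMod) (nsmulSeries G p) from
    ((map_nsmulSeries G _ p).2).symm, PowerSeries.map_comp, RingHom.comp_apply,
    honda_nsmul_p hk hG, map_pow, PowerSeries.map_X]

end general

section ball

variable {p n h : ℕ} [Fact p.Prime]
variable {C : Type} [NontriviallyNormedField C] [IsUltrametricDist C] [CharP C p]

variable (p C) in
/-- The ball of radius 1 / p in the unit ball. -/
def smallIdeal : Ideal (unitBall C) where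
  carrier := {x | ‖(x : C)‖ ≤ (p : ℝ)⁻¹}
  add_mem' := fun {a b} ha hb =>
    (IsUltrametricDist.norm_add_le_max (a : C) (b : C)).trans (max_le ha hb)
  zero_mem' := by simp
  smul_mem' := fun c x hx => by
    show ‖((c * x : unitBall C) : C)‖ ≤ _
    rw [Subring.coe_mul, norm_mul]
    exact (mul_le_of_le_one_left (norm_nonneg _) c.2).trans hx

omit [Fact p.Prime] [CharP C p] in
theorem mem_smallIdeal (x : unitBall C) : x ∈ smallIdeal p C ↔ ‖(x : C)‖ ≤ (p : ℝ)⁻¹ := Iff.rfl

variable (p C) in
/-- The unit ball modulo the ball of radius 1 / p. -/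
abbrev BallQuot : Type := unitBall C ⧸ smallIdeal p C

instance nontrivial_ballQuot : Nontrivial (BallQuot p C) := by
  refine Ideal.Quotient.nontrivial_iff.2 fun htop => ?_
  have h1 := (mem_smallIdeal (p := p) (C := C) 1).1 (by rw [htop]; trivial)
  rw [Subring.coe_one, norm_one] at h1
  exact absurd h1 (not_le.2 (inv_lt_one_of_one_lt₀ (by exact_mod_cast (Fact.out : p.Prime).one_lt)))

instance charP_ballQuot : CharP (BallQuot p C) p :=
  (CharP.charP_iff_prime_eq_zero (Fact.out : p.Prime)).2 (by
    rw [← map_natCast (Ideal.Quotient.mk (smallIdeal p C)), CharP.cast_eq_zero, map_zero])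

/-- Modulo 1 / p the law at a point is the Honda law. -/
theorem pointLaw_mod (hn : 1 ≤ n) {F : FormalGroup (E0 p n)} (hF : IsUniversalDeformation p n F)
    (P : GoodPoint p n h C) {Gn : FormalGroup ℤ_[p]} (hG : IsHondaLift n Gn) :
    (F.map (chiO hn P)).map (Ideal.Quotient.mk (smallIdeal p C)) = hondaIn Gn (BallQuot p C) := by
  let embO : GaloisField p n →+* unitBall C :=
    P.emb.codRestrict _ fun x => EF.norm_eq_of_fixed hn (EF.emb_fixed hn P x)
  have hcomp : (Ideal.Quotient.mk (smallIdeal p C)).comp (chiO hn P) =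
      ((Ideal.Quotient.mk (smallIdeal p C)).comp embO).comp residue := by
    refine RingHom.ext fun a => ?_
    exact (Ideal.Quotient.eq).2 (EF.chi_sub_emb_le P a)
  rw [fg_map_map, hcomp, ← fg_map_map, EF.residue_universal hF hn hG, map_hondaIn]

variable {Gn Gh : FormalGroup ℤ_[p]}

/-- A hom at a point with digits a satisfies the congruences of the powers. -/
theorem digit_congr (hn : 1 ≤ n) (hh : 1 ≤ h) (hhn : h < n) (hGn : IsHondaLift n Gn)
    (hGh : IsHondaLift h Gh) {F : FormalGroup (E0 p n)} (hF : IsUniversalDeformation p n F)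
    (P : GoodPoint p n h C) {a : ℕ → C} (ha : ∀ j, ‖a j‖ ≤ 1)
    (hi : EF.IsHom (EF.lawAt F P) (hondaIn Gh C) (digitSeries p (hondaIn Gh C) a)) :
    (∀ j, ‖a (j + (n - h)) ^ p ^ h - a j‖ ≤ (p : ℝ)⁻¹) ∧
      ∀ i, i < n - h → ‖a i ^ p ^ h‖ ≤ (p : ℝ)⁻¹ := by
  have hp := (Fact.out : p.Prime)
  set aO : ℕ → unitBall C := fun j => ⟨a j, ha j⟩
  set q := Ideal.Quotient.mk (smallIdeal p C)
  set b : ℕ → BallQuot p C := fun j => q (aO j) with hb
  set iO := digitSeries p (hondaIn Gh (unitBall C)) aO with hiO
  have hmapC : PowerSeries.map (unitBall C).subtype iO = digitSeries p (hondaIn Gh C) a := by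
    rw [hiO, map_digitSeries, map_hondaIn]
    rfl
  have hlaw : (F.map (chiO hn P)).map (unitBall C).subtype = EF.lawAt F P := by
    rw [fg_map_map]
    rfl
  have hO : EF.IsHom (F.map (chiO hn P)) (hondaIn Gh (unitBall C)) iO := by
    refine isHom_of_map (g := (unitBall C).subtype) Subtype.coe_injective
      (constantCoeff_digitSeries _ _ hp.ne_zero) ?_
    rw [hlaw, map_hondaIn, hmapC]
    exact hi
  have hQ : EF.IsHom (hondaIn Gn (BallQuot p C)) (hondaIn Gh (BallQuot p C))
      (digitSeries p (hondaIn Gh (BallQuot p C)) b) := by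
    have h1 := isHom_map hO q
    rw [pointLaw_mod hn hF P hGn, map_hondaIn, hiO, map_digitSeries, map_hondaIn] at h1
    exact h1
  set G' := hondaIn Gh (BallQuot p C)
  set i' := digitSeries p G' b with hi'
  have hcomm := (hom_nsmul hQ.1 hQ.2 p).2.2
  rw [hondaIn_nsmul_p hn hGn, hondaIn_nsmul_p hh hGh, subst_pow (HasSubst.of_constantCoeff_zero' hQ.1),
    subst_X (HasSubst.of_constantCoeff_zero' hQ.1),
    ← PowerSeries.expand_apply (p ^ n) (pow_ne_zero n hp.ne_zero)] at hcomm
  have hfrob : i' ^ p ^ h = expand (p ^ h) (pow_ne_zero h hp.ne_zero)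
      (digitSeries p G' fun j => b j ^ p ^ h) := by
    have hmap : PowerSeries.map (iterateFrobenius (BallQuot p C) p h) i' =
        digitSeries p G' fun j => b j ^ p ^ h := by
      rw [hi', map_digitSeries, map_hondaIn]
      rfl
    rw [← hmap]
    show _ = MvPowerSeries.expand (p ^ h) (pow_ne_zero h hp.ne_zero)
      (MvPowerSeries.map (iterateFrobenius (BallQuot p C) p h) i')
    rw [← MvPowerSeries.map_expand]
    exact (MvPowerSeries.map_iterateFrobenius_expand p hp.ne_zero i' h).symm
  rw [hfrob, hi', ← digitSeries_expand, ← digitSeries_expand] at hcomm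
  have key : ∀ m, shiftDigits n b m = shiftDigits h (fun j => b j ^ p ^ h) m :=
    congrFun (digit_unique G' p hcomm)
  have hnorm : ∀ x y : unitBall C, q x = q y → ‖(x : C) - y‖ ≤ (p : ℝ)⁻¹ := fun x y e => by
    have := (mem_smallIdeal (x - y)).1 ((Ideal.Quotient.eq).1 e)
    simpa using this
  refine ⟨fun j => ?_, fun i hi' => ?_⟩
  · have e := key (n + j)
    simp only [shiftDigits, if_pos (Nat.le_add_right n j), if_pos (show h ≤ n + j by omega),
      Nat.add_sub_cancel_left, show n + j - h = j + (n - h) by omega, hb, ← map_pow] at e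
    exact hnorm (aO (j + (n - h)) ^ p ^ h) (aO j) e.symm
  · have e := key (h + i)
    simp only [shiftDigits, if_neg (show ¬ n ≤ h + i by omega), if_pos (Nat.le_add_right h i),
      Nat.add_sub_cancel_left, hb, ← map_pow] at e
    simpa using hnorm (aO i ^ p ^ h) 0 (by rw [map_zero]; exact e.symm)

end ball

end Vale.Agent.P217.Hom
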