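import Vale.Agent.P217.FE
import Vale.Agent.P217.FEBridge

/-!
# P217, block HOM: morphisms of setups and the law over the polynomial ring

The universal deformation is the image of a law over `ℤ[v 1, ..., v (n - 1)]`, so every law at a
point is the reduction of a law with the same logarithm recursion over the Witt vectors.
-/

noncomputable section

namespace Vale.Agent.P217.Hom

open MvPowerSeries

variable {p : ℕ} [Fact p.Prime] {B K B' K' : Type} [CommRing B] [CommRing K] [CommRing B']
  [CommRing K']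

omit [Fact p.Prime] in
theorem map_pinv' (S : FE.Setup B K p) (S' : FE.Setup B' K' p) (gK : K →+* K') :
    gK S.pinv = S'.pinv := by
  have h : (p : K') * gK S.pinv = 1 := by simpa using congrArg gK S.p_pinv
  calc gK S.pinv = ((p : K') * S'.pinv) * gK S.pinv := by rw [S'.p_pinv, one_mul]
    _ = S'.pinv * ((p : K') * gK S.pinv) := by ring
    _ = S'.pinv := by rw [h, mul_one]

omit [Fact p.Prime] in
theorem map_m (S : FE.Setup B K p) (S' : FE.Setup B' K' p) (g : B →+* B') (gK : K →+* K')
    (hc : ∀ b, gK (S.ι b) = S'.ι (g b)) (hv : ∀ a, 1 ≤ a → g (S.v a) = S'.v a) (k : ℕ) :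
    gK (S.m k) = S'.m k := by
  induction k using Nat.strong_induction_on with
  | _ k ih =>
    cases k with
    | zero => simp
    | succ k =>
      rw [S.m_succ, S'.m_succ, map_mul, map_pinv' S S' gK, map_sum]
      refine congrArg _ (Finset.sum_congr rfl fun j hj => ?_)
      rw [Finset.mem_range] at hj
      rw [map_mul, map_pow, hc, hv _ (by omega), ih j hj]

omit [Fact p.Prime] in
theorem map_LE {σ : Type} (S : FE.Setup B K p) (S' : FE.Setup B' K' p) (g : B →+* B')
    (gK : K →+* K') (hc : ∀ b, gK (S.ι b) = S'.ι (g b))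
    (hv : ∀ a, 1 ≤ a → g (S.v a) = S'.v a) (h : MvPowerSeries σ K) :
    MvPowerSeries.map gK (S.LE h) = S'.LE (MvPowerSeries.map gK h) := by
  ext α
  rw [coeff_map, FE.Setup.coeff_LE, FE.Setup.coeff_LE, map_sum]
  exact Finset.sum_congr rfl fun k _ => by
    rw [map_mul, map_m S S' g gK hc hv, ← coeff_map, map_pow]

/-- F has the logarithm of S. -/
def IsLawOf (S : FE.Setup B K p) (F : MvPowerSeries (Fin 2) B) : Prop :=
  constantCoeff F = 0 ∧
    S.LE (MvPowerSeries.map S.ι F) = S.LE (MvPowerSeries.X 0) + S.LE (MvPowerSeries.X 1)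

theorem map_map' {σ R₁ R₂ R₃ : Type} [CommRing R₁] [CommRing R₂] [CommRing R₃] (f : R₁ →+* R₂)
    (g : R₂ →+* R₃) (F : MvPowerSeries σ R₁) :
    MvPowerSeries.map g (MvPowerSeries.map f F) = MvPowerSeries.map (g.comp f) F := by
  rw [MvPowerSeries.map_comp]
  rfl

omit [Fact p.Prime] in
theorem IsLawOf.map {S : FE.Setup B K p} {S' : FE.Setup B' K' p} {F : MvPowerSeries (Fin 2) B}
    (h : IsLawOf S F) (g : B →+* B') (gK : K →+* K') (hc : ∀ b, gK (S.ι b) = S'.ι (g b))
    (hv : ∀ a, 1 ≤ a → g (S.v a) = S'.v a) : IsLawOf S' (MvPowerSeries.map g F) := by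
  refine ⟨by rw [constantCoeff_map, h.1, map_zero], ?_⟩
  have e := congrArg (MvPowerSeries.map gK) h.2
  rw [map_add, map_LE S S' g gK hc hv, map_LE S S' g gK hc hv, map_LE S S' g gK hc hv,
    MvPowerSeries.map_X, MvPowerSeries.map_X, map_map'] at e
  rw [map_map']
  have hcomp : gK.comp S.ι = S'.ι.comp g := RingHom.ext hc
  rwa [hcomp] at e

theorem IsLawOf.unique {S : FE.Setup B K p} {F G : MvPowerSeries (Fin 2) B} (hF : IsLawOf S F)
    (hG : IsLawOf S G) : F = G := by
  have h := S.LE_injective (FE.Setup.constantCoeff_map' S.ι hF.1)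
    (FE.Setup.constantCoeff_map' S.ι hG.1) (hF.2.trans hG.2.symm)
  exact MvPowerSeries.ext fun m => S.inj (by rw [← coeff_map, h, coeff_map])

omit [Fact p.Prime] in
/-- A map into a ring with p invertible extends to the ring with p inverted. -/
def extendP (S' : FE.Setup B' K' p) (g : B →+* B') : Localization.Away ((p : ℕ) : B) →+* K' :=
  IsLocalization.Away.lift ((p : ℕ) : B) (g := S'.ι.comp g)
    (by rw [RingHom.comp_apply, map_natCast g, map_natCast]
        exact isUnit_iff_exists_inv.2 ⟨_, S'.p_pinv⟩)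

omit [Fact p.Prime] in
theorem extendP_comm (S' : FE.Setup B' K' p) (g : B →+* B') (b : B) :
    extendP S' g (algebraMap B _ b) = S'.ι (g b) :=
  IsLocalization.Away.lift_eq _ _ _

variable (p) (n : ℕ)

/-- The ring of parameters. -/
abbrev Par : Type := MvPolynomial (Fin (n - 1)) ℤ

/-- The parameters in the polynomial ring. -/
def vPar (i : ℕ) : Par n :=
  if h : 1 ≤ i ∧ i < n then MvPolynomial.X ⟨i - 1, by omega⟩ else if i = n then 1 else 0

theorem p_ne_zero_par : ((p : ℕ) : Par n) ≠ 0 := by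
  intro h
  have h' := congrArg MvPolynomial.constantCoeff h
  rw [map_natCast, map_zero] at h'
  exact (Fact.out : p.Prime).ne_zero (by exact_mod_cast h')

theorem expand_sub_pow (b : Par n) :
    ((p : ℕ) : Par n) ∣ MvPolynomial.expand p b - b ^ p := by
  rw [← map_natCast (MvPolynomial.C : ℤ →+* Par n), MvPolynomial.C_dvd_iff_zmod, map_sub, map_pow,
    MvPolynomial.map_expand, MvPolynomial.expand_zmod, sub_self]

/-- The setup over the polynomial ring. -/
def parSetup : FE.Setup (Par n) (Localization.Away ((p : ℕ) : Par n)) p where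
  ι := algebraMap _ _
  inj := away_lift_injective (p_ne_zero_par p n)
  pinv := IsLocalization.Away.invSelf _
  p_pinv := p_mul_invSelf p
  φ := (MvPolynomial.expand p).toRingHom
  φK := liftAway p (MvPolynomial.expand p).toRingHom
  comm := liftAway_comm p _
  frob := expand_sub_pow p n
  v := vPar n
  φ_v a := by
    show MvPolynomial.expand p (vPar n a) = vPar n a ^ p
    unfold vPar
    split_ifs <;> simp [(Fact.out : p.Prime).ne_zero]

theorem map_vPar {R : Type} [CommRing R] (g : Fin (n - 1) → R) (f : ℕ → R)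
    (hX : ∀ (i : ℕ) (h : 1 ≤ i ∧ i < n), f i = g ⟨i - 1, by omega⟩) (h1 : f n = 1)
    (h0 : ∀ i, ¬ (1 ≤ i ∧ i < n) → i ≠ n → f i = 0) (i : ℕ) :
    MvPolynomial.eval₂Hom (Int.castRingHom R) g (vPar n i) = f i := by
  unfold vPar
  split_ifs with h h'
  · rw [MvPolynomial.eval₂Hom_X', hX i h]
  · rw [map_one, h', h1]
  · rw [map_zero, h0 i h h']

/-- Evaluation of the parameters in E0. -/
def toE0 : Par n →+* E0 p n :=
  MvPolynomial.eval₂Hom (Int.castRingHom _) MvPowerSeries.X

theorem toE0_v (i : ℕ) : toE0 p n (vPar n i) = vv p n i := by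
  refine map_vPar n _ (vv p n) (fun j h => ?_) ?_ (fun j h h' => ?_) i
  · rw [vv, dif_pos h]
  · rw [vv, dif_neg (by omega), if_pos rfl]
  · rw [vv, dif_neg h, if_neg h']

variable {p n}

/-- The universal deformation is the image of the law over the polynomial ring. -/
theorem exists_par_law :
    ∃ F₀ : MvPowerSeries (Fin 2) (Par n), IsLawOf (parSetup p n) F₀ ∧
      ∀ F : FormalGroup (E0 p n), IsUniversalDeformation p n F →
        F.toPowerSeries = MvPowerSeries.map (toE0 p n) F₀ := by
  obtain ⟨F₀, hc, hF₀⟩ := (parSetup p n).exists_law_series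
  refine ⟨F₀, ⟨hc, hF₀⟩, fun F hF => ?_⟩
  have h1 : IsLawOf (e0Setup p n) (MvPowerSeries.map (toE0 p n) F₀) :=
    IsLawOf.map (S := parSetup p n) ⟨hc, hF₀⟩ (toE0 p n) (extendP (e0Setup p n) (toE0 p n))
      (extendP_comm _ _) fun a _ => toE0_v p n a
  refine IsLawOf.unique (S := e0Setup p n) ⟨F.zero_constantCoeff, ?_⟩ h1
  rw [FE.Setup.LE_eq_subst _ _ (FE.Setup.constantCoeff_map' _ F.zero_constantCoeff),
    FE.Setup.LE_eq_subst _ _ (MvPowerSeries.constantCoeff_X 0),
    FE.Setup.LE_eq_subst _ _ (MvPowerSeries.constantCoeff_X 1), e0Setup_logPS]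
  exact hF

end Vale.Agent.P217.Hom
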