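import Vale.Agent.P217.EFDefs
import Vale.Agent.P217.EF.Point
import Vale.Agent.P217.Hom.Morph

/-!
# P217, block HOM: lifts to the Witt vectors of the unit ball

The law at a point and the Honda law in characteristic p are reductions of laws over the Witt
vectors of the unit ball with known logarithms.
-/

noncomputable section

namespace Vale.Agent.P217.Hom

open MvPowerSeries

variable (p : ℕ) [Fact p.Prime]
variable (C : Type) [NontriviallyNormedField C] [IsUltrametricDist C] [CharP C p]

instance charP_unitBall : CharP (unitBall C) p :=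
  ((unitBall C).subtype.charP_iff Subtype.coe_injective p).2 inferInstance

/-- The Witt vectors of the unit ball. -/
abbrev WB : Type := WittVector p (unitBall C)

/-- The Witt vectors of the unit ball with p inverted. -/
abbrev KB : Type := Localization.Away ((p : ℕ) : WB p C)

/-- Reduction of Witt vectors of the unit ball. -/
def red0 : WB p C →+* C := (unitBall C).subtype.comp WittVector.constantCoeff

omit [CharP C p] in
theorem red0_apply (x : WB p C) : red0 p C x = (x.coeff 0 : C) := rfl

omit [CharP C p] in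
theorem red0_teichmuller (x : unitBall C) : red0 p C (WittVector.teichmuller p x) = (x : C) := by
  rw [red0_apply, WittVector.teichmuller_coeff_zero]

omit [CharP C p] in
theorem norm_red0_le (x : WB p C) : ‖red0 p C x‖ ≤ 1 := (x.coeff 0).2

variable [IsAlgClosed C]

instance perfectRing_unitBall : PerfectRing (unitBall C) p :=
  PerfectRing.ofSurjective _ p fun x => by
    obtain ⟨y, hy⟩ := IsAlgClosed.exists_pow_nat_eq (x : C) (Fact.out : p.Prime).pos
    have hy1 : ‖y‖ ≤ 1 := by
      refine (pow_le_one_iff_of_nonneg (norm_nonneg y) (Fact.out : p.Prime).ne_zero).1 ?_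
      rw [← norm_pow, hy]
      exact x.2
    exact ⟨⟨y, hy1⟩, Subtype.ext (by simpa [frobenius_def] using hy)⟩

theorem p_dvd_iff (x : WB p C) : (p : WB p C) ∣ x ↔ red0 p C x = 0 := by
  rw [← Ideal.mem_span_singleton, WittVector.mem_span_p_iff_coeff_zero_eq_zero, red0_apply]
  exact ⟨fun h => by rw [h]; rfl, fun h => Subtype.ext h⟩

theorem red0_eq_of_dvd {x y : WB p C} (h : (p : WB p C) ∣ x - y) : red0 p C x = red0 p C y :=
  sub_eq_zero.1 (by rw [← map_sub]; exact (p_dvd_iff p C _).1 h)

omit [IsAlgClosed C] in
theorem red0_frobenius (x : WB p C) : red0 p C (WittVector.frobenius x) = red0 p C x ^ p := by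
  rw [red0_apply, red0_apply, WittVector.coeff_frobenius_charP]
  rfl

omit [IsAlgClosed C] in
theorem p_ne_zero_WB : ((p : ℕ) : WB p C) ≠ 0 := WittVector.p_nonzero p (unitBall C)

omit [IsAlgClosed C] in
theorem frobenius_teichmuller (x : unitBall C) :
    WittVector.frobenius (WittVector.teichmuller p x) = WittVector.teichmuller p x ^ p := by
  rw [← map_pow]
  ext i
  rw [WittVector.coeff_frobenius_charP]
  cases i with
  | zero => rw [WittVector.teichmuller_coeff_zero, WittVector.teichmuller_coeff_zero]
  | succ i =>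
    rw [WittVector.teichmuller_coeff_pos _ _ _ i.succ_pos,
      WittVector.teichmuller_coeff_pos _ _ _ i.succ_pos, zero_pow (Fact.out : p.Prime).ne_zero]

/-- A setup over the Witt vectors of the unit ball with given parameters. -/
def wbSetup (v : ℕ → WB p C) (hv : ∀ a, WittVector.frobenius (v a) = v a ^ p) :
    FE.Setup (WB p C) (KB p C) p where
  ι := algebraMap _ _
  inj := away_lift_injective (p_ne_zero_WB p C)
  pinv := IsLocalization.Away.invSelf _
  p_pinv := p_mul_invSelf p
  φ := WittVector.frobenius
  φK := liftAway p WittVector.frobenius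
  comm := liftAway_comm p WittVector.frobenius
  frob b := by
    rw [p_dvd_iff, map_sub, map_pow, red0_frobenius, sub_self]
  v := v
  φ_v := hv

/-- The setup of the Honda law over the Witt vectors of the unit ball. -/
def hondaB (h : ℕ) : FE.Setup (WB p C) (KB p C) p :=
  wbSetup p C (fun a => if a = h then 1 else 0) fun a => by
    split_ifs <;> simp [(Fact.out : p.Prime).ne_zero]

/-- The p-adic integers in the Witt vectors of the unit ball. -/
def zpB : ℤ_[p] →+* WB p C :=
  (WittVector.map (ZMod.castHom (dvd_refl p) (unitBall C))).comp (WittVector.fromPadicInt p)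

omit [IsUltrametricDist C] [IsAlgClosed C] in
/-- Maps of the p-adic integers into characteristic p. -/
theorem padicInt_hom_eq (g : ℤ_[p] →+* C) :
    g = (ZMod.castHom (dvd_refl p) C).comp PadicInt.toZMod := by
  refine RingHom.ext fun x => ?_
  have hmem : x - ((PadicInt.toZMod x).val : ℤ_[p]) ∈ IsLocalRing.maximalIdeal ℤ_[p] := by
    rw [← PadicInt.ker_toZMod, RingHom.mem_ker, map_sub, map_natCast, ZMod.natCast_val,
      ZMod.cast_id, sub_self]
  rw [PadicInt.maximalIdeal_eq_span_p, Ideal.mem_span_singleton] at hmem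
  obtain ⟨c, hc⟩ := hmem
  have h := congrArg g hc
  rw [map_sub, map_natCast, map_mul, map_natCast, CharP.cast_eq_zero C p, zero_mul, sub_eq_zero] at h
  rw [h, RingHom.comp_apply, ZMod.castHom_apply]
  exact ZMod.natCast_val (R := C) (PadicInt.toZMod x)

variable (n h : ℕ)

/-- The setup of the Honda law over the p-adic integers. -/
def hondaZ : FE.Setup ℤ_[p] ℚ_[p] p where
  ι := algebraMap _ _
  inj := IsFractionRing.injective ℤ_[p] ℚ_[p]
  pinv := (p : ℚ_[p])⁻¹
  p_pinv := mul_inv_cancel₀ (Nat.cast_ne_zero.2 (Fact.out : p.Prime).ne_zero)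
  φ := RingHom.id _
  φK := RingHom.id _
  comm _ := rfl
  frob b := by
    rw [← Ideal.mem_span_singleton, ← PadicInt.maximalIdeal_eq_span_p, ← PadicInt.ker_toZMod,
      RingHom.mem_ker, map_sub, map_pow, RingHom.id_apply, ZMod.pow_card, sub_self]
  v a := if a = h then 1 else 0
  φ_v a := by split_ifs <;> simp [(Fact.out : p.Prime).ne_zero]

variable {p n h}

theorem hondaZ_m (hh : 1 ≤ h) (k : ℕ) :
    (hondaZ p h).m k = if h ∣ k then 1 / (p : ℚ_[p]) ^ (k / h) else 0 := by
  induction k using Nat.strong_induction_on with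
  | _ k ih =>
    cases k with
    | zero => simp
    | succ k =>
      rw [FE.Setup.m_succ']
      show (p : ℚ_[p])⁻¹ * ∑ j ∈ Finset.range (k + 1), algebraMap ℤ_[p] ℚ_[p]
        (if k + 1 - j = h then 1 else 0) * ((RingHom.id ℚ_[p]) ^ (k + 1 - j)) _ = _
      have hid : ∀ (i : ℕ) (x : ℚ_[p]), ((RingHom.id ℚ_[p]) ^ i) x = x := fun i x => by
        induction i with
        | zero => rfl
        | succ i ih => rw [pow_succ', RingHom.coe_mul, Function.comp_apply, ih]; rfl
      simp only [hid]
      by_cases hle : h ≤ k + 1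
      · rw [Finset.sum_eq_single (k + 1 - h)]
        · rw [if_pos (by omega), map_one, one_mul, ih _ (by omega)]
          by_cases hd : h ∣ k + 1
          · rw [if_pos (Nat.dvd_sub hd dvd_rfl), if_pos hd]
            have hdiv : (k + 1) / h = (k + 1 - h) / h + 1 := by
              rw [← Nat.add_div_right _ (by omega), Nat.sub_add_cancel hle]
            rw [hdiv, pow_succ]
            ring
          · rw [if_neg fun hd' => hd ?_, if_neg hd, mul_zero]
            simpa [Nat.sub_add_cancel hle] using Nat.dvd_add hd' (dvd_refl h)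
        · intro j hj hne
          rw [Finset.mem_range] at hj
          rw [if_neg (by omega), map_zero, zero_mul]
        · intro hne
          exact absurd (Finset.mem_range.2 (by omega)) hne
      · rw [if_neg fun hd => hle (Nat.le_of_dvd (by omega) hd), Finset.sum_eq_zero, mul_zero]
        intro j _
        rw [if_neg (by omega), map_zero, zero_mul]

theorem hondaZ_isLawOf (hh : 1 ≤ h) {Gh : FormalGroup ℤ_[p]} (hG : IsHondaLift h Gh) :
    IsLawOf (hondaZ p h) Gh.toPowerSeries := by
  refine ⟨Gh.zero_constantCoeff, ?_⟩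
  rw [FE.Setup.LE_eq_subst _ _ (FE.Setup.constantCoeff_map' _ Gh.zero_constantCoeff),
    FE.Setup.LE_eq_subst _ _ (MvPowerSeries.constantCoeff_X 0),
    FE.Setup.LE_eq_subst _ _ (MvPowerSeries.constantCoeff_X 1)]
  have hf : (hondaZ p h).logPS = PowerSeries.mk fun N =>
      if N = p ^ Nat.log p N ∧ h ∣ Nat.log p N then 1 / (p : ℚ_[p]) ^ (Nat.log p N / h) else 0 := by
    ext N
    simp only [FE.Setup.logPS, PowerSeries.coeff_mk, hondaZ_m hh, ite_and]
  rw [hf]
  exact hG

variable (p)

omit [IsAlgClosed C] in
theorem isUnit_zpB (y : nonZeroDivisors ℤ_[p]) :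
    IsUnit (((algebraMap (WB p C) (KB p C)).comp (zpB p C)) y) := by
  have hy : (y : ℤ_[p]) ≠ 0 := nonZeroDivisors.coe_ne_zero y
  rw [PadicInt.unitCoeff_spec hy, map_mul, map_pow, map_natCast]
  refine IsUnit.mul ((PadicInt.unitCoeff hy).isUnit.map _) (IsUnit.pow _ ?_)
  exact isUnit_iff_exists_inv.2 ⟨_, p_mul_invSelf p⟩

/-- The p-adic numbers in the Witt vectors of the unit ball with p inverted. -/
def qpB : ℚ_[p] →+* KB p C := IsLocalization.lift (isUnit_zpB p C)

omit [IsAlgClosed C] in
theorem qpB_comm (x : ℤ_[p]) :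
    qpB p C (algebraMap ℤ_[p] ℚ_[p] x) = algebraMap (WB p C) (KB p C) (zpB p C x) :=
  IsLocalization.lift_eq _ _

variable {p C}

/-- The Honda lift over the Witt vectors of the unit ball. -/
def hondaLaw (Gh : FormalGroup ℤ_[p]) : FormalGroup (WB p C) := Gh.map (zpB p C)

theorem hondaLaw_isLawOf (hh : 1 ≤ h) {Gh : FormalGroup ℤ_[p]} (hG : IsHondaLift h Gh) :
    IsLawOf (hondaB p C h) (hondaLaw (C := C) Gh).toPowerSeries :=
  (hondaZ_isLawOf hh hG).map (zpB p C) (qpB p C) (qpB_comm p C) fun a _ => by
    show zpB p C (if a = h then 1 else 0) = if a = h then 1 else 0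
    split_ifs <;> simp

omit [IsAlgClosed C] in
theorem red0_hondaLaw (Gh : FormalGroup ℤ_[p]) :
    MvPowerSeries.map (red0 p C) (hondaLaw (C := C) Gh).toPowerSeries =
      (hondaIn Gh C).toPowerSeries := by
  show MvPowerSeries.map _ (MvPowerSeries.map (zpB p C) Gh.toPowerSeries) = _
  rw [map_map', padicInt_hom_eq p C ((red0 p C).comp (zpB p C))]
  rfl

section point

variable (hn : 1 ≤ n) (P : GoodPoint p n h C)

/-- The point with values in the unit ball. -/
def chiO : E0 p n →+* unitBall C := P.chi.codRestrict _ (EF.norm_chi_le hn P)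

omit [CharP C p] [IsAlgClosed C] in
theorem coe_chiO (a : E0 p n) : (chiO hn P a : C) = P.chi a := rfl

/-- The setup of the law at a point. -/
def pointSetup : FE.Setup (WB p C) (KB p C) p :=
  wbSetup p C (fun a => WittVector.teichmuller p (chiO hn P (vv p n a)))
    fun _ => frobenius_teichmuller p C _

theorem pointSetup_v (a : ℕ) :
    (pointSetup hn P).v a = WittVector.teichmuller p (chiO hn P (vv p n a)) := rfl

/-- Evaluation of the parameters at the point. -/
def toWB : Par n →+* WB p C :=
  MvPolynomial.eval₂Hom (Int.castRingHom _) fun i =>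
    WittVector.teichmuller p (chiO hn P (MvPowerSeries.X i))

theorem exists_pointLaw {F : FormalGroup (E0 p n)} (hF : IsUniversalDeformation p n F) :
    ∃ G : MvPowerSeries (Fin 2) (WB p C), IsLawOf (pointSetup hn P) G ∧
      MvPowerSeries.map (red0 p C) G = (EF.lawAt F P).toPowerSeries := by
  obtain ⟨F₀, hF₀, huniv⟩ := exists_par_law (p := p) (n := n)
  refine ⟨MvPowerSeries.map (toWB hn P) F₀, hF₀.map _ (extendP (pointSetup hn P) (toWB hn P))
    (extendP_comm _ _) (fun a _ => ?_), ?_⟩
  · refine map_vPar n _ (fun a => WittVector.teichmuller p (chiO hn P (vv p n a))) (fun i hi => ?_)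
      ?_ (fun i hi hi' => ?_) a
    · simp only [vv, dif_pos hi]
    · simp only [vv, dif_neg (show ¬ (1 ≤ n ∧ n < n) by omega), if_true, map_one]
    · simp only [vv, dif_neg hi, if_neg hi', map_zero, WittVector.teichmuller_zero]
  · show _ = MvPowerSeries.map P.chi F.toPowerSeries
    rw [huniv F hF, map_map', map_map']
    refine congrArg (fun g => MvPowerSeries.map g F₀) (MvPolynomial.ringHom_ext (fun z => ?_) ?_)
    · simp [toWB, toE0]
    · intro i
      simp [toWB, toE0, red0_teichmuller, coe_chiO]

end point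

end Vale.Agent.P217.Hom
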